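import Vale.Agent.P093.U.Stair
import Vale.Agent.P093.HB.H2

/-!
# P093, part A: pushed cube coordinates and labels give `SmallOn`

* `smallOn_relabel` : splitting of the weights along a locally constant labelling.
* `smallOn_of_labels` : coordinates `g j : E → [0,1]`, carried by `χ (ν j)`, and a labelling in the
  format of `Hom.dc_label` / `Hom.static`.
* `smallOn_of_push` : the cube coordinates of the groups after the push, count as in `Hom.static`.
* `smallOn_of_exit` : the same from the output of the exit lemma `Exit.exit`.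
* `smallOn_of_subtype` : from the subspace `K` to `K ⊆ E`.
-/

open Set
open scoped Topology

namespace Vale.Agent.P093.A

open U

section Labels

variable {X : Type*} {E : Type*} [TopologicalSpace E]

theorem smallOn_relabel {𝒱 : Set (Set E)} {𝒲 : Set (Set X)} {p : E → X} {K : Set E} {ord : E → ℕ}
    (h : SmallOn 𝒱 id K ord) (h𝒲 : 𝒲.Finite)
    (hlab : ∀ V ∈ 𝒱, ∃ f : E → Set X, (∀ e ∈ K, e ∈ V → f e ∈ 𝒲 ∧ p e ∈ f e) ∧
      ∀ e ∈ K, e ∈ V → ∀ᶠ e' in 𝓝[K] e, f e' = f e) : SmallOn 𝒲 p K ord := by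
  classical
  obtain ⟨ι, _, w, h1, h2, h3, h4, h5⟩ := h
  choose V hV hVw using h4
  choose f hf hfl using fun i => hlab (V i) (hV i)
  have : Fintype 𝒲 := h𝒲.fintype
  let eq : Fin (Fintype.card 𝒲) ≃ 𝒲 := (Fintype.equivFin 𝒲).symm
  let w' : ι × Fin (Fintype.card 𝒲) → E → ℝ := fun k e =>
    if f k.1 e = (eq k.2 : Set X) then w k.1 e else 0
  refine ⟨ι × Fin (Fintype.card 𝒲), inferInstance, w', ?_, ?_, ?_, ?_, ?_⟩
  · rintro ⟨i, k⟩ e he
    by_cases h0 : w i e = 0
    · have h6 : w' (i, k) e = 0 := by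
        simp only [w', h0, ite_self]
      rw [ContinuousWithinAt, h6]
      have h7 := h1 i e he
      rw [ContinuousWithinAt, h0] at h7
      refine squeeze_zero_norm (a := fun e' => ‖w i e'‖) (fun e' => ?_) (by simpa using h7.norm)
      simp only [w']
      split_ifs
      · exact le_rfl
      · simp
    · have h6 := hfl i e he (hVw i e he h0)
      refine ContinuousWithinAt.congr_of_eventuallyEq (f := fun e' =>
        if f i e = (eq k : Set X) then w i e' else 0) ?_ ?_ rfl
      · by_cases h7 : f i e = (eq k : Set X)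
        · simp only [if_pos h7]
          exact h1 i e he
        · simp only [if_neg h7]
          exact continuousWithinAt_const
      · filter_upwards [h6] with e' he'
        simp only [w', he']
  · rintro ⟨i, k⟩ e he
    simp only [w']
    split_ifs
    · exact h2 i e he
    · exact le_rfl
  · intro e he
    rw [Fintype.sum_prod_type, ← h3 e he]
    refine Finset.sum_congr rfl fun i _ => ?_
    by_cases h0 : w i e = 0
    · simp only [w', h0, ite_self, Finset.sum_const_zero]
    · obtain ⟨h6, -⟩ := hf i e he (hVw i e he h0)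
      rw [Finset.sum_eq_single (eq.symm ⟨f i e, h6⟩)]
      · simp [w']
      · intro k _ hk
        simp only [w']
        rw [if_neg]
        intro h7
        apply hk
        rw [Equiv.eq_symm_apply]
        exact Subtype.ext h7.symm
      · intro h7
        exact absurd (Finset.mem_univ _) h7
  · rintro ⟨i, k⟩
    refine ⟨eq k, (eq k).2, fun e he hne => ?_⟩
    simp only [w'] at hne
    split_ifs at hne with h6
    · rw [← h6]
      exact (hf i e he (hVw i e he hne)).2
    · exact absurd rfl hne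
  · intro e he
    refine le_trans ?_ (h5 e he)
    refine Set.ncard_le_ncard_of_injOn Prod.fst ?_ ?_ (Set.toFinite _)
    · rintro ⟨i, k⟩ hk h0
      apply hk
      simp only [w', h0, ite_self]
    · rintro ⟨i, k⟩ hk ⟨i', k'⟩ hk' (hii : i = i')
      subst hii
      have h6 : f i e = (eq k : Set X) := by
        by_contra h7
        exact hk (by simp only [w', if_neg h7])
      have h7 : f i e = (eq k' : Set X) := by
        by_contra h7
        exact hk' (by simp only [w', if_neg h7])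
      have h8 : k = k' := eq.injective (Subtype.ext (h6.symm.trans h7))
      rw [h8]

/-- two sets, one coordinate -/
theorem smallOn_coord (g : E → ℝ) {K : Set E} (hg : ContinuousOn g K) (h0 : ∀ e ∈ K, 0 ≤ g e)
    (h1 : ∀ e ∈ K, g e ≤ 1) [DecidablePred fun e => 0 < g e ∧ g e < 1] :
    SmallOn {{e | 0 < g e}, {e | g e < 1}} id K (fun e => if 0 < g e ∧ g e < 1 then 1 else 0) := by
  refine ⟨Bool, inferInstance, fun b e => bif b then g e else 1 - g e, ?_, ?_, ?_, ?_, ?_⟩
  · rintro (_ | _)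
    · exact continuousOn_const.sub hg
    · exact hg
  · rintro (_ | _) e he
    · exact sub_nonneg.2 (h1 e he)
    · exact h0 e he
  · intro e _
    simp
  · rintro (_ | _)
    · refine ⟨_, Or.inr rfl, fun e he hne => ?_⟩
      have h2 := h1 e he
      simp only [cond_false, ne_eq, sub_eq_zero] at hne
      exact lt_of_le_of_ne h2 fun h3 => hne h3.symm
    · refine ⟨_, Or.inl rfl, fun e he hne => ?_⟩
      have h2 := h0 e he
      exact lt_of_le_of_ne h2 fun h3 => hne h3.symm
  · intro e he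
    have h2 := h0 e he
    have h3 := h1 e he
    beta_reduce
    split_ifs with h4
    · refine (Set.ncard_le_ncard (Set.subset_univ _)).trans ?_
      simp
    · rcases h2.lt_or_eq with h5 | h5
      · have h6 : g e = 1 := le_antisymm h3 (not_lt.1 fun h7 => h4 ⟨h5, h7⟩)
        have h7 : {i : Bool | (bif i then g e else 1 - g e) ≠ 0} ⊆ {true} := by
          rintro (_ | _) hi
          · exact absurd (by simp [h6]) hi
          · rfl
        exact (Set.ncard_le_ncard h7).trans (by simp)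
      · have h7 : {i : Bool | (bif i then g e else 1 - g e) ≠ 0} ⊆ {false} := by
          rintro (_ | _) hi
          · rfl
          · exact absurd h5.symm hi
        exact (Set.ncard_le_ncard h7).trans (by simp)

/-- coordinates in `[0,1]`, carried by functions `χ` on `X`, and a labelling of the vertices -/
theorem smallOn_of_labels_interior {X : Type*} [PseudoMetricSpace X] [CompactSpace X]
    {C J : Type} [Fintype J] (χ : C → X → ℝ) (ν : J → C) {𝒲 : Set (Set X)} (W : X → Set C → Set X)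
    {δ₁ : ℝ} (hδ₁ : 0 < δ₁)
    (hW : ∀ x x', dist x x' < δ₁ → ∀ A : Set C, (∀ c ∈ A, c ∈ range ν ∧ 1 / 8 < χ c x) →
      (∀ c ∈ range ν, 7 / 8 < χ c x → c ∈ A) → W x A ∈ 𝒲 ∧ x' ∈ W x A ∧ W x' A = W x A)
    {p : E → X} {K : Set E} (hp : ContinuousOn p K) (g : J → E → ℝ)
    (hg : ∀ j, ContinuousOn (g j) K) (hg0 : ∀ j, ∀ e ∈ K, 0 ≤ g j e)
    (hg1 : ∀ j, ∀ e ∈ K, g j e ≤ 1) (hc0 : ∀ j, ∀ e ∈ K, 0 < g j e → 1 / 8 < χ (ν j) (p e))
    (hc1 : ∀ j, ∀ e ∈ K, g j e < 1 → χ (ν j) (p e) ≤ 7 / 8) {ord : E → ℕ}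
    (hord : ∀ e ∈ K, {j | 0 < g j e ∧ g j e < 1}.ncard ≤ ord e) :
    SmallOn (interior '' 𝒲) p K ord := by
  classical
  have h1 := SmallOn.join (J := J) fun j => smallOn_coord (g j) (hg j) (hg0 j) (hg1 j)
  -- a finite net
  obtain ⟨T, hTfin, hT⟩ := Metric.totallyBounded_iff.1
    (isCompact_univ (X := X)).totallyBounded δ₁ hδ₁
  obtain ⟨𝒲', h𝒲'⟩ : ∃ 𝒲' : Set (Set X), 𝒲' = (interior '' 𝒲) ∩
      (⋃ y ∈ T, (fun A => interior (W y A)) '' (𝒫 (range ν))) := ⟨_, rfl⟩
  have hfin : 𝒲'.Finite := by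
    rw [h𝒲']
    refine Set.Finite.subset ?_ inter_subset_right
    exact hTfin.biUnion fun y _ => ((Set.finite_range ν).powerset).image _
  refine SmallOn.mono (W := 𝒲') (K := K) (ord := ord) ?_ (fun V hV => ?_) Subset.rfl
    fun e _ => le_rfl
  swap
  · rw [h𝒲'] at hV
    exact ⟨V, hV.1, Subset.rfl⟩
  refine smallOn_relabel (h1.mono (fun V hV => ⟨V, hV, Subset.rfl⟩) Subset.rfl
    (ord' := ord) fun e he => ?_) hfin ?_
  · refine le_trans (le_of_eq ?_) (hord e he)
    rw [Set.ncard_eq_toFinset_card', Finset.sum_ite, Finset.sum_const_zero, add_zero,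
      Finset.sum_const, smul_eq_mul, mul_one]
    congr 1
    ext j
    simp
  · rintro V ⟨f, hf, rfl⟩
    obtain ⟨A, hA⟩ : ∃ A : Set C, A = {c | ∃ j, f j = {e | 0 < g j e} ∧ ν j = c} := ⟨_, rfl⟩
    have hAr : A ⊆ range ν := by
      rw [hA]
      rintro c ⟨j, -, rfl⟩
      exact ⟨j, rfl⟩
    have hall : ∀ e ∈ K, e ∈ ⋂ j, f j → (∀ c ∈ A, c ∈ range ν ∧ 1 / 8 < χ c (p e)) ∧
        ∀ c ∈ range ν, 7 / 8 < χ c (p e) → c ∈ A := by
      intro e he heV
      rw [mem_iInter] at heV
      refine ⟨fun c hc => ?_, fun c hc h7 => ?_⟩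
      · rw [hA] at hc
        obtain ⟨j, hj, rfl⟩ := hc
        have h2 := heV j
        rw [hj] at h2
        exact ⟨⟨j, rfl⟩, hc0 j e he h2⟩
      · obtain ⟨j, rfl⟩ := hc
        rw [hA]
        refine ⟨j, ?_, rfl⟩
        rcases hf j with h2 | h2
        · exact h2
        · exfalso
          have h3 := heV j
          rw [h2] at h3
          exact absurd (hc1 j e he h3) (not_le.2 h7)
    refine ⟨fun e => interior (W (p e) A), fun e he heV => ?_, fun e he heV => ?_⟩
    · obtain ⟨h2, h3⟩ := hall e he heV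
      obtain ⟨h4, -, -⟩ := hW (p e) (p e) (by rwa [dist_self]) A h2 h3
      refine ⟨?_, ?_⟩
      · rw [h𝒲']
        refine ⟨⟨_, h4, rfl⟩, ?_⟩
        obtain ⟨y, hy, hye⟩ := mem_iUnion₂.1 (hT (mem_univ (p e)))
        refine mem_iUnion₂.2 ⟨y, hy, A, hAr, ?_⟩
        change interior (W y A) = interior (W (p e) A)
        rw [(hW (p e) y hye A h2 h3).2.2]
      · rw [mem_interior_iff_mem_nhds]
        refine Filter.mem_of_superset (Metric.ball_mem_nhds (p e) hδ₁) fun x' hx' => ?_
        rw [Metric.mem_ball'] at hx'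
        exact (hW (p e) x' hx' A h2 h3).2.1
    · obtain ⟨h2, h3⟩ := hall e he heV
      have h4 : ∀ᶠ e' in 𝓝[K] e, dist (p e') (p e) < δ₁ := by
        have h5 := hp e he
        exact h5.eventually (Metric.ball_mem_nhds (p e) hδ₁)
      filter_upwards [h4] with e' he'
      rw [dist_comm] at he'
      rw [(hW (p e) (p e') he' A h2 h3).2.2]

theorem smallOn_of_labels {X : Type*} [PseudoMetricSpace X] [CompactSpace X]
    {C J : Type} [Fintype J] (χ : C → X → ℝ) (ν : J → C) {𝒲 : Set (Set X)} (W : X → Set C → Set X)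
    {δ₁ : ℝ} (hδ₁ : 0 < δ₁)
    (hW : ∀ x x', dist x x' < δ₁ → ∀ A : Set C, (∀ c ∈ A, c ∈ range ν ∧ 1 / 8 < χ c x) →
      (∀ c ∈ range ν, 7 / 8 < χ c x → c ∈ A) → W x A ∈ 𝒲 ∧ x' ∈ W x A ∧ W x' A = W x A)
    {p : E → X} {K : Set E} (hp : ContinuousOn p K) (g : J → E → ℝ)
    (hg : ∀ j, ContinuousOn (g j) K) (hg0 : ∀ j, ∀ e ∈ K, 0 ≤ g j e)
    (hg1 : ∀ j, ∀ e ∈ K, g j e ≤ 1) (hc0 : ∀ j, ∀ e ∈ K, 0 < g j e → 1 / 8 < χ (ν j) (p e))
    (hc1 : ∀ j, ∀ e ∈ K, g j e < 1 → χ (ν j) (p e) ≤ 7 / 8) {ord : E → ℕ}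
    (hord : ∀ e ∈ K, {j | 0 < g j e ∧ g j e < 1}.ncard ≤ ord e) : SmallOn 𝒲 p K ord := by
  refine (smallOn_of_labels_interior χ ν W hδ₁ hW hp g hg hg0 hg1 hc0 hc1 hord).mono ?_ Subset.rfl
    fun e _ => le_rfl
  rintro _ ⟨V, hV, rfl⟩
  exact ⟨V, hV, interior_subset⟩

end Labels

section Push

variable {X : Type*} [PseudoMetricSpace X] [CompactSpace X] {E : Type*} [TopologicalSpace E]

/-- clamp to `[-3/8, 3/8]` -/
noncomputable def clampA (u : ℝ) : ℝ := max (-(3 / 8)) (min (3 / 8) u)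

theorem abs_clampA_le (u : ℝ) : |clampA u| ≤ 3 / 8 := by
  unfold clampA
  rw [abs_le]
  exact ⟨le_max_left _ _, max_le (by norm_num) (min_le_left _ _)⟩

theorem continuous_clampA : Continuous clampA := by
  unfold clampA
  fun_prop

theorem clampA_of_le {u : ℝ} (h : |u| ≤ 3 / 8) : clampA u = u := by
  rw [abs_le] at h
  unfold clampA
  rw [min_eq_right h.2, max_eq_right h.1]

theorem clampA_of_le_neg {u : ℝ} (h : u ≤ -(3 / 8)) : clampA u = -(3 / 8) := by
  unfold clampA
  rw [min_eq_right (by linarith), max_eq_left h]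

theorem lt_of_neg_lt_clampA {u : ℝ} (h : -(3 / 8) < clampA u) : -(3 / 8) < u := by
  by_contra h1
  rw [clampA_of_le_neg (not_lt.1 h1)] at h
  exact lt_irrefl _ h

theorem lt_of_clampA_lt {u : ℝ} (h : clampA u < 3 / 8) : u < 3 / 8 := by
  by_contra h1
  unfold clampA at h
  rw [min_eq_left (not_lt.1 h1), max_eq_right (by norm_num)] at h
  exact lt_irrefl _ h

theorem card_filter_get {C : Type*} (ss : List C) (Q : C → Prop) [DecidablePred Q] :
    (Finset.univ.filter fun i : Fin ss.length => Q (ss.get i)).card =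
      (ss.filter fun c => Q c).length := by
  have h1 : ss.filter (fun c => Q c) =
      (((List.finRange ss.length).map ss.get).filter fun c => Q c) := by
    rw [List.map_get_finRange]
  rw [h1, List.filter_map, List.length_map]
  rfl

theorem card_free_add_exit {m n : ℕ} (P : Fin m → Fin n → Prop) [∀ a b, Decidable (P a b)]
    (B : Fin m → Prop) [DecidablePred B] [DecidablePred fun γ => B γ ∧ ∃ j, ¬ P γ j]
    (h : ∀ γ, ¬ B γ → ∀ j, ¬ P γ j) :
    (Finset.univ.filter fun k : Fin m × Fin n => P k.1 k.2).card +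
      (Finset.univ.filter fun γ => B γ ∧ ∃ j, ¬ P γ j).card ≤
        n * (Finset.univ.filter fun γ => B γ).card := by
  have h1 : ∀ γ, (Finset.univ.filter fun j => P γ j).card +
      (if B γ ∧ ∃ j, ¬ P γ j then 1 else 0) ≤ n * (if B γ then 1 else 0) := by
    intro γ
    by_cases hB : B γ
    · rw [if_pos hB, mul_one]
      split_ifs with h2
      · obtain ⟨-, j, hj⟩ := h2
        have : (Finset.univ.filter fun j => P γ j).card < (Finset.univ : Finset (Fin n)).card :=
          Finset.card_lt_card (Finset.filter_ssubset.2 ⟨j, Finset.mem_univ _, hj⟩)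
        rw [Finset.card_fin] at this
        omega
      · have := Finset.card_le_univ (Finset.univ.filter fun j => P γ j)
        rw [Fintype.card_fin] at this
        omega
    · rw [if_neg hB, if_neg fun h2 => hB h2.1, mul_zero, add_zero, Nat.le_zero,
        Finset.card_eq_zero, Finset.filter_eq_empty_iff]
      intro j _
      exact h γ hB j
  have h2 := Finset.sum_le_sum fun γ (_ : γ ∈ (Finset.univ : Finset (Fin m))) => h1 γ
  rw [Finset.sum_add_distrib, ← Finset.mul_sum, Finset.sum_boole, Finset.sum_boole] at h2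
  have h3 : (Finset.univ.filter fun k : Fin m × Fin n => P k.1 k.2).card =
      ∑ γ, (Finset.univ.filter fun j => P γ j).card := by
    rw [Finset.card_filter, Fintype.sum_prod_type]
    exact Finset.sum_congr rfl fun γ _ => (Finset.card_filter _ _).symm
  rw [h3]
  simpa using h2

open scoped Classical in
/-- **the cube coordinates after the push** : hypotheses as in `Hom.static`. Use `SmallOn.mono` and
`interior_subset` to replace `interior '' 𝒲` by `𝒲`. -/
theorem smallOn_of_push {C : Type} {κ a m : ℕ} (χ : C → X → ℝ) (hχ : ∀ c, Continuous (χ c))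
    (crd : Fin m → ℕ → C) (ss : List C) (actv : Fin m → Set X)
    (hact2 : ∀ γ x, x ∉ actv γ → ∀ i ≤ 2 * κ, χ (crd γ i) x ≤ 1 / 8)
    {𝒲 : Set (Set X)} (W : X → Set C → Set X) {δ₁ : ℝ} (hδ₁ : 0 < δ₁)
    (hW : ∀ x x', dist x x' < δ₁ → ∀ A : Set C,
      (∀ c ∈ A, c ∈ Hom.coords κ crd ss ∧ 1 / 8 < χ c x) →
      (∀ c ∈ Hom.coords κ crd ss, 7 / 8 < χ c x → c ∈ A) →
      W x A ∈ 𝒲 ∧ x' ∈ W x A ∧ W x' A = W x A)
    {D : ℕ} (hD : ∀ x, (2 * κ + 1) * (Finset.univ.filter fun γ => x ∈ actv γ).card +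
      (ss.filter fun c => 1 / 8 < χ c x ∧ χ c x < 7 / 8).length ≤ D + a + 1)
    {p : E → X} {K : Set E} (hp : ContinuousOn p K)
    (z : Fin m → Fin (2 * κ + 1) → E → ℝ) (hz : ∀ γ j, ContinuousOn (z γ j) K)
    (hz1 : ∀ γ j, ∀ e ∈ K, |z γ j e| ≤ 3 / 8)
    (hz2 : ∀ γ, ∀ e ∈ K, (∃ j : Fin (2 * κ + 1), 3 / 8 ≤ |χ (crd γ j) (p e) - 1 / 2|) →
      ∀ j, z γ j e = clampA (χ (crd γ j) (p e) - 1 / 2))
    (hexit : ∀ e ∈ K, a + 1 ≤
      (Finset.univ.filter fun γ => p e ∈ actv γ ∧ ∃ j, |z γ j e| = 3 / 8).card) :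
    SmallOn (interior '' 𝒲) p K (fun _ => D) := by
  obtain ⟨ν, hν⟩ : ∃ ν : (Fin m × Fin (2 * κ + 1)) ⊕ Fin ss.length → C,
      ν = Sum.elim (fun k => crd k.1 k.2) fun i => ss.get i := ⟨_, rfl⟩
  obtain ⟨u, hu⟩ : ∃ u : (Fin m × Fin (2 * κ + 1)) ⊕ Fin ss.length → E → ℝ,
      u = Sum.elim (fun k => z k.1 k.2) fun i e => clampA (χ (ss.get i) (p e) - 1 / 2) := ⟨_, rfl⟩
  have hrange : ∀ c, c ∈ range ν ↔ c ∈ Hom.coords κ crd ss := by
    intro c
    unfold Hom.coords
    simp only [List.mem_append, List.mem_flatMap, List.mem_map, List.mem_range, List.mem_finRange,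
      true_and, mem_range, Sum.exists, Prod.exists, hν, Sum.elim_inl, Sum.elim_inr]
    refine or_congr ⟨?_, ?_⟩ ?_
    · rintro ⟨γ, j, rfl⟩
      exact ⟨γ, j, j.2, rfl⟩
    · rintro ⟨γ, j, hj, rfl⟩
      exact ⟨γ, ⟨j, hj⟩, rfl⟩
    · rw [List.mem_iff_get]
  have hu1 : ∀ k, ∀ e ∈ K, |u k e| ≤ 3 / 8 := by
    rintro (⟨γ, j⟩ | i) e he
    · rw [hu]
      exact hz1 γ j e he
    · rw [hu]
      exact abs_clampA_le _
  have huc : ∀ k, ContinuousOn (u k) K := by
    rintro (⟨γ, j⟩ | i)
    · rw [hu]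
      exact hz γ j
    · rw [hu]
      exact continuous_clampA.comp_continuousOn
        (((hχ (ss.get i)).comp_continuousOn hp).sub continuousOn_const)
  have hval : ∀ k, ∀ e ∈ K, 3 / 8 ≤ |χ (ν k) (p e) - 1 / 2| →
      u k e = clampA (χ (ν k) (p e) - 1 / 2) := by
    rintro (⟨γ, j⟩ | i) e he h0
    · rw [hu, hν]
      rw [hν] at h0
      exact hz2 γ e he ⟨j, h0⟩ j
    · rw [hu, hν]
      rfl
  refine smallOn_of_labels_interior χ ν W hδ₁ (fun x x' hx A h1 h2 => hW x x' hx A
      (fun c hc => ⟨(hrange c).1 (h1 c hc).1, (h1 c hc).2⟩) fun c hc => h2 c ((hrange c).2 hc)) hp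
    (fun k e => (u k e + 3 / 8) * (4 / 3)) (fun k => ((huc k).add continuousOn_const).mul
      continuousOn_const) ?_ ?_ ?_ ?_ ?_
  · intro k e he
    have h1 := abs_le.1 (hu1 k e he)
    linarith [h1.1]
  · intro k e he
    have h1 := abs_le.1 (hu1 k e he)
    linarith [h1.2]
  · intro k e he h0
    by_contra h1
    have h2 : χ (ν k) (p e) - 1 / 2 ≤ -(3 / 8) := by linarith [not_lt.1 h1]
    have h3 := hval k e he (by rw [le_abs]; right; linarith)
    rw [clampA_of_le_neg h2] at h3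
    rw [h3] at h0
    norm_num at h0
  · intro k e he h0
    by_contra h1
    have h2 : 3 / 8 ≤ χ (ν k) (p e) - 1 / 2 := by linarith [not_le.1 h1]
    have h3 := hval k e he (by rw [le_abs]; left; exact h2)
    have h4 : u k e < 3 / 8 := by linarith
    rw [h3] at h4
    exact absurd (lt_of_clampA_lt h4) (not_lt.2 h2)
  · intro e he
    -- the free coordinates
    have hfree : ∀ k, (0 < (u k e + 3 / 8) * (4 / 3) ∧ (u k e + 3 / 8) * (4 / 3) < 1) ↔
        |u k e| ≠ 3 / 8 := by
      intro k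
      have h1 := abs_le.1 (hu1 k e he)
      constructor
      · rintro ⟨h2, h3⟩ h4
        rcases abs_eq (by norm_num : (0 : ℝ) ≤ 3 / 8) |>.1 h4 with h5 | h5
        · rw [h5] at h3
          norm_num at h3
        · rw [h5] at h2
          norm_num at h2
      · intro h2
        constructor
        · by_contra h3
          apply h2
          have h4 : u k e = -(3 / 8) := by linarith [not_lt.1 h3]
          rw [h4]
          norm_num
        · by_contra h3
          apply h2
          have h4 : u k e = 3 / 8 := by linarith [not_lt.1 h3]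
          rw [h4]
          norm_num
    have hset : {k | 0 < (u k e + 3 / 8) * (4 / 3) ∧ (u k e + 3 / 8) * (4 / 3) < 1} =
        {k | |u k e| ≠ 3 / 8} := by
      ext k
      exact hfree k
    rw [hset, Set.ncard_eq_toFinset_card']
    have hsplit : ({k | |u k e| ≠ 3 / 8} : Set _).toFinset =
        (Finset.univ.filter fun k : Fin m × Fin (2 * κ + 1) => |z k.1 k.2 e| ≠ 3 / 8).disjSum
          (Finset.univ.filter fun i : Fin ss.length =>
            |clampA (χ (ss.get i) (p e) - 1 / 2)| ≠ 3 / 8) := by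
      ext k
      rcases k with k | i <;> simp [hu]
    rw [hsplit, Finset.card_disjSum]
    -- single coordinates
    have hss : (Finset.univ.filter fun i : Fin ss.length =>
        |clampA (χ (ss.get i) (p e) - 1 / 2)| ≠ 3 / 8).card ≤
        (ss.filter fun c => 1 / 8 < χ c (p e) ∧ χ c (p e) < 7 / 8).length := by
      rw [← card_filter_get ss fun c => 1 / 8 < χ c (p e) ∧ χ c (p e) < 7 / 8]
      refine Finset.card_le_card fun i hi => ?_
      rw [Finset.mem_filter] at hi ⊢
      have h1 := abs_clampA_le (χ (ss.get i) (p e) - 1 / 2)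
      have h2 := abs_lt.1 (lt_of_le_of_ne h1 hi.2)
      have h3 := lt_of_neg_lt_clampA h2.1
      have h4 := lt_of_clampA_lt h2.2
      exact ⟨Finset.mem_univ _, by linarith, by linarith⟩
    -- groups
    have hgr : (Finset.univ.filter fun k : Fin m × Fin (2 * κ + 1) => |z k.1 k.2 e| ≠ 3 / 8).card +
        (Finset.univ.filter fun γ => p e ∈ actv γ ∧ ∃ j, |z γ j e| = 3 / 8).card ≤
        (2 * κ + 1) * (Finset.univ.filter fun γ => p e ∈ actv γ).card := by
      have h1 := card_free_add_exit (fun γ j => |z γ j e| ≠ 3 / 8) (fun γ => p e ∈ actv γ) ?_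
      · simpa only [ne_eq, not_not] using h1
      · intro γ hγ j
        have h2 : χ (crd γ j) (p e) ≤ 1 / 8 := hact2 γ (p e) hγ j (Nat.lt_succ_iff.1 j.2)
        rw [not_not, hz2 γ e he ⟨j, by rw [le_abs]; right; linarith⟩ j,
          clampA_of_le_neg (by linarith)]
        norm_num
    have := hexit e he
    have := hD (p e)
    omega

/-- from the subspace `K` to `ContinuousOn K` -/
theorem smallOn_of_subtype {X E : Type*} [TopologicalSpace E] {𝒲 : Set (Set X)} {p : E → X}
    {K : Set E} {ord : E → ℕ}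
    (h : SmallOn 𝒲 (fun e : K => p e) univ fun e => ord e) : SmallOn 𝒲 p K ord := by
  classical
  obtain ⟨ι, _, w, h1, h2, h3, h4, h5⟩ := h
  have hw : ∀ i (e : E) (he : e ∈ K), (if he : e ∈ K then w i ⟨e, he⟩ else 0) = w i ⟨e, he⟩ :=
    fun i e he => dif_pos he
  refine ⟨ι, inferInstance, fun i e => if he : e ∈ K then w i ⟨e, he⟩ else 0, fun i => ?_,
    fun i e he => ?_, fun e he => ?_, fun i => ?_, fun e he => ?_⟩
  · rw [continuousOn_iff_continuous_domRestrict]
    refine (continuousOn_univ.1 (h1 i)).congr fun e => ?_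
    exact (hw i e e.2).symm
  · simp only [hw i e he]
    exact h2 i _ (mem_univ _)
  · simp only [hw _ e he]
    exact h3 _ (mem_univ _)
  · obtain ⟨V, hV, hV2⟩ := h4 i
    refine ⟨V, hV, fun e he hne => hV2 ⟨e, he⟩ (mem_univ _) ?_⟩
    simp only [hw i e he] at hne
    exact hne
  · simp only [hw _ e he]
    exact h5 ⟨e, he⟩ (mem_univ _)

open scoped Classical in
/-- **from the exit lemma to `SmallOn`** : hypotheses as in `Hom.static`, `g` as in `Exit.exit`.
The sets `interior V` are open, so `SmallOn.nbhd` applies. -/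
theorem smallOn_of_exit {C : Type} {κ a m : ℕ} (χ : C → X → ℝ) (hχ : ∀ c, Continuous (χ c))
    (crd : Fin m → ℕ → C) (ss : List C) (actv : Fin m → Set X)
    (hact2 : ∀ γ x, x ∉ actv γ → ∀ i ≤ 2 * κ, χ (crd γ i) x ≤ 1 / 8)
    {𝒲 : Set (Set X)} (W : X → Set C → Set X) {δ₁ : ℝ} (hδ₁ : 0 < δ₁)
    (hW : ∀ x x', dist x x' < δ₁ → ∀ A : Set C,
      (∀ c ∈ A, c ∈ Hom.coords κ crd ss ∧ 1 / 8 < χ c x) →
      (∀ c ∈ Hom.coords κ crd ss, 7 / 8 < χ c x → c ∈ A) →
      W x A ∈ 𝒲 ∧ x' ∈ W x A ∧ W x' A = W x A)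
    {D : ℕ} (hD : ∀ x, (2 * κ + 1) * (Finset.univ.filter fun γ => x ∈ actv γ).card +
      (ss.filter fun c => 1 / 8 < χ c x ∧ χ c x < 7 / 8).length ≤ D + a + 1)
    {p : E → X} {K : Set E} (hp : ContinuousOn p K)
    (g : Fin m → ℕ → E → ℝ) (hg : ∀ γ, ∀ j ≤ 2 * κ, ContinuousOn (g γ j) K)
    (hg1 : ∀ γ, ∀ j ≤ 2 * κ, ∀ e ∈ K, 1 / 8 ≤ χ (crd γ j) (p e) - 1 / 2 → 1 / 8 ≤ g γ j e)
    (hg2 : ∀ γ, ∀ j ≤ 2 * κ, ∀ e ∈ K, χ (crd γ j) (p e) - 1 / 2 ≤ -1 / 8 → g γ j e ≤ -1 / 8)
    (hexit : ∀ e ∈ K, a + 1 ≤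
      (Finset.univ.filter fun γ => p e ∈ actv γ ∧ ∃ j ≤ 2 * κ, 1 / 8 ≤ |g γ j e|).card) :
    SmallOn (interior '' 𝒲) p K (fun _ => D) := by
  obtain ⟨ν, hν⟩ : ∃ ν : (Fin m × Fin (2 * κ + 1)) ⊕ Fin ss.length → C,
      ν = Sum.elim (fun k => crd k.1 k.2) fun i => ss.get i := ⟨_, rfl⟩
  -- `u ∈ [-3/8, 3/8]`
  obtain ⟨u, hu⟩ : ∃ u : (Fin m × Fin (2 * κ + 1)) ⊕ Fin ss.length → E → ℝ,
      u = Sum.elim (fun k e => clampA (3 * g k.1 k.2 e))
        fun i e => clampA (χ (ss.get i) (p e) - 1 / 2) := ⟨_, rfl⟩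
  have hrange : ∀ c, c ∈ range ν ↔ c ∈ Hom.coords κ crd ss := by
    intro c
    unfold Hom.coords
    simp only [List.mem_append, List.mem_flatMap, List.mem_map, List.mem_range, List.mem_finRange,
      true_and, mem_range, Sum.exists, Prod.exists, hν, Sum.elim_inl, Sum.elim_inr]
    refine or_congr ⟨?_, ?_⟩ ?_
    · rintro ⟨γ, j, rfl⟩
      exact ⟨γ, j, j.2, rfl⟩
    · rintro ⟨γ, j, hj, rfl⟩
      exact ⟨γ, ⟨j, hj⟩, rfl⟩
    · rw [List.mem_iff_get]
  have hu1 : ∀ k, ∀ e, |u k e| ≤ 3 / 8 := by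
    rintro (⟨γ, j⟩ | i) e
    · rw [hu]
      exact abs_clampA_le _
    · rw [hu]
      exact abs_clampA_le _
  have huc : ∀ k, ContinuousOn (u k) K := by
    rintro (⟨γ, j⟩ | i)
    · rw [hu]
      exact continuous_clampA.comp_continuousOn
        (continuousOn_const.mul (hg γ j (Nat.lt_succ_iff.1 j.2)))
    · rw [hu]
      exact continuous_clampA.comp_continuousOn
        (((hχ (ss.get i)).comp_continuousOn hp).sub continuousOn_const)
  have hlow : ∀ k, ∀ e ∈ K, -(3 / 8) < u k e → 1 / 8 < χ (ν k) (p e) := by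
    rintro (⟨γ, j⟩ | i) e he h0
    · rw [hu] at h0
      have h1 := lt_of_neg_lt_clampA h0
      have h2 : -1 / 8 < χ (crd γ j) (p e) - 1 / 2 := by
        by_contra h3
        have := hg2 γ j (Nat.lt_succ_iff.1 j.2) e he (not_lt.1 h3)
        linarith
      rw [hν]
      change 1 / 8 < χ (crd γ j) (p e)
      linarith
    · rw [hu] at h0
      have h1 := lt_of_neg_lt_clampA h0
      rw [hν]
      change 1 / 8 < χ (ss.get i) (p e)
      linarith
  have hupp : ∀ k, ∀ e ∈ K, u k e < 3 / 8 → χ (ν k) (p e) ≤ 7 / 8 := by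
    rintro (⟨γ, j⟩ | i) e he h0
    · rw [hu] at h0
      have h1 := lt_of_clampA_lt h0
      have h2 : χ (crd γ j) (p e) - 1 / 2 < 1 / 8 := by
        by_contra h3
        have := hg1 γ j (Nat.lt_succ_iff.1 j.2) e he (not_lt.1 h3)
        linarith
      rw [hν]
      change χ (crd γ j) (p e) ≤ 7 / 8
      linarith
    · rw [hu] at h0
      have h1 := lt_of_clampA_lt h0
      rw [hν]
      change χ (ss.get i) (p e) ≤ 7 / 8
      linarith
  refine smallOn_of_labels_interior χ ν W hδ₁ (fun x x' hx A h1 h2 => hW x x' hx A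
      (fun c hc => ⟨(hrange c).1 (h1 c hc).1, (h1 c hc).2⟩) fun c hc => h2 c ((hrange c).2 hc)) hp
    (fun k e => (u k e + 3 / 8) * (4 / 3)) (fun k => ((huc k).add continuousOn_const).mul
      continuousOn_const) ?_ ?_ ?_ ?_ ?_
  · intro k e he
    have h1 := abs_le.1 (hu1 k e)
    linarith [h1.1]
  · intro k e he
    have h1 := abs_le.1 (hu1 k e)
    linarith [h1.2]
  · intro k e he h0
    exact hlow k e he (by linarith)
  · intro k e he h0
    exact hupp k e he (by linarith)
  · intro e he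
    have hfree : ∀ k, (0 < (u k e + 3 / 8) * (4 / 3) ∧ (u k e + 3 / 8) * (4 / 3) < 1) ↔
        |u k e| ≠ 3 / 8 := by
      intro k
      have h1 := abs_le.1 (hu1 k e)
      constructor
      · rintro ⟨h2, h3⟩ h4
        rcases abs_eq (by norm_num : (0 : ℝ) ≤ 3 / 8) |>.1 h4 with h5 | h5
        · rw [h5] at h3
          norm_num at h3
        · rw [h5] at h2
          norm_num at h2
      · intro h2
        constructor
        · by_contra h3
          apply h2
          have h4 : u k e = -(3 / 8) := by linarith [not_lt.1 h3]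
          rw [h4]
          norm_num
        · by_contra h3
          apply h2
          have h4 : u k e = 3 / 8 := by linarith [not_lt.1 h3]
          rw [h4]
          norm_num
    have hset : {k | 0 < (u k e + 3 / 8) * (4 / 3) ∧ (u k e + 3 / 8) * (4 / 3) < 1} =
        {k | |u k e| ≠ 3 / 8} := by
      ext k
      exact hfree k
    rw [hset, Set.ncard_eq_toFinset_card']
    have hsplit : ({k | |u k e| ≠ 3 / 8} : Set _).toFinset =
        (Finset.univ.filter fun k : Fin m × Fin (2 * κ + 1) =>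
          |clampA (3 * g k.1 k.2 e)| ≠ 3 / 8).disjSum
          (Finset.univ.filter fun i : Fin ss.length =>
            |clampA (χ (ss.get i) (p e) - 1 / 2)| ≠ 3 / 8) := by
      ext k
      rcases k with k | i <;> simp [hu]
    rw [hsplit, Finset.card_disjSum]
    -- single coordinates
    have hss : (Finset.univ.filter fun i : Fin ss.length =>
        |clampA (χ (ss.get i) (p e) - 1 / 2)| ≠ 3 / 8).card ≤
        (ss.filter fun c => 1 / 8 < χ c (p e) ∧ χ c (p e) < 7 / 8).length := by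
      rw [← card_filter_get ss fun c => 1 / 8 < χ c (p e) ∧ χ c (p e) < 7 / 8]
      refine Finset.card_le_card fun i hi => ?_
      rw [Finset.mem_filter] at hi ⊢
      have h1 := abs_clampA_le (χ (ss.get i) (p e) - 1 / 2)
      have h2 := abs_lt.1 (lt_of_le_of_ne h1 hi.2)
      have h3 := lt_of_neg_lt_clampA h2.1
      have h4 := lt_of_clampA_lt h2.2
      exact ⟨Finset.mem_univ _, by linarith, by linarith⟩
    -- groups
    have hgr : (Finset.univ.filter fun k : Fin m × Fin (2 * κ + 1) =>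
          |clampA (3 * g k.1 k.2 e)| ≠ 3 / 8).card +
        (Finset.univ.filter fun γ => p e ∈ actv γ ∧
          ∃ j : Fin (2 * κ + 1), |clampA (3 * g γ j e)| = 3 / 8).card ≤
        (2 * κ + 1) * (Finset.univ.filter fun γ => p e ∈ actv γ).card := by
      have h1 := card_free_add_exit
        (fun (γ : Fin m) (j : Fin (2 * κ + 1)) => |clampA (3 * g γ j e)| ≠ 3 / 8)
        (fun γ => p e ∈ actv γ) ?_
      · simpa only [ne_eq, not_not] using h1
      · intro γ hγ j
        have h2 : χ (crd γ j) (p e) ≤ 1 / 8 := hact2 γ (p e) hγ j (Nat.lt_succ_iff.1 j.2)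
        have h3 := hg2 γ j (Nat.lt_succ_iff.1 j.2) e he (by linarith)
        rw [not_not, clampA_of_le_neg (by linarith)]
        norm_num
    have hex : (Finset.univ.filter fun γ => p e ∈ actv γ ∧ ∃ j ≤ 2 * κ, 1 / 8 ≤ |g γ j e|).card ≤
        (Finset.univ.filter fun γ => p e ∈ actv γ ∧
          ∃ j : Fin (2 * κ + 1), |clampA (3 * g γ j e)| = 3 / 8).card := by
      refine Finset.card_le_card fun γ hγ => ?_
      rw [Finset.mem_filter] at hγ ⊢
      obtain ⟨h1, h2, j, hj, h3⟩ := hγ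
      refine ⟨h1, h2, ⟨j, Nat.lt_succ_iff.2 hj⟩, ?_⟩
      change |clampA (3 * g γ j e)| = 3 / 8
      rcases le_abs.1 h3 with h4 | h4
      · unfold clampA
        rw [min_eq_left (by linarith), max_eq_right (by norm_num)]
        norm_num
      · rw [clampA_of_le_neg (by linarith)]
        norm_num
    have := hexit e he
    have := hD (p e)
    omega

end Push

end Vale.Agent.P093.A
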