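import Vale.Agent.P093.A.Cut
import Vale.Agent.P251.G.Gr

/-!
# Cut-off maps into `Th n J`: one vector, `nsq` as the norm

`continuous_nsqCut` : `z ↦ (Q z, (1 - nsq (ξ z))⁻¹ • ξ z)` where `z ∈ U` and `nsq (ξ z) < 1`, `∞` elsewhere.
`continuous_nsqCut_sphere` : the version on `T × OnePoint V`.
-/

open OnePoint Set Topology Filter Matrix
open Vale.Agent.P251.G (IsProj Th nsq nsq_nonneg continuous_nsq)

namespace Vale.Agent.P093.A

section

variable {n : ℕ} {J : Type} [Fintype J]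

theorem nsq_smul' (r : ℝ) (v : J → ℂ) : nsq (r • v) = r ^ 2 * nsq v := by
  unfold nsq
  rw [Finset.mul_sum]
  refine Finset.sum_congr rfl fun i _ => ?_
  rw [Pi.smul_apply, Complex.real_smul, map_mul, Complex.normSq_ofReal]
  ring

theorem lt_nsq_cut {v : J → ℂ} (hv : nsq v < 1) {R : ℝ} (hR : 0 ≤ R) (h : 1 - 1 / (2 * (1 + R)) < nsq v) :
    R < nsq ((1 - nsq v)⁻¹ • v) := by
  rw [nsq_smul']
  obtain ⟨a, ha⟩ : ∃ a, a = 1 - nsq v := ⟨_, rfl⟩
  have ha0 : 0 < a := by rw [ha]; linarith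
  have ha1 : nsq v = 1 - a := by rw [ha]; ring
  have ha2 : a * (2 * (1 + R)) < 1 := by
    have h1 : a < 1 / (2 * (1 + R)) := by rw [ha]; linarith
    rwa [lt_div_iff₀ (by positivity)] at h1
  rw [← ha, ha1, inv_pow, ← div_eq_inv_mul, lt_div_iff₀ (by positivity)]
  nlinarith [mul_nonneg hR ha0.le, mul_pos ha0 ha0, mul_nonneg (mul_nonneg hR ha0.le) ha0.le]

variable {Z : Type*} [TopologicalSpace Z]

/-- **Cut-off maps into `Th n J` are continuous** (one vector). -/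
theorem continuous_nsqCut {U : Set Z} (hU : IsOpen U) {Q : Z → Matrix J J ℂ} {ξ : Z → J → ℂ}
    (hQc : ContinuousOn Q U) (hξc : ContinuousOn ξ U)
    (hbd : ∀ z₀ ∉ U, ∀ᶠ z in 𝓝 z₀, z ∈ U → 1 ≤ nsq (ξ z)) {f : Z → OnePoint (Th n J)}
    (hf1 : ∀ z ∈ U, nsq (ξ z) < 1 → ∃ h h',
      f z = OnePoint.some (Th.mk (Q z) ((1 - nsq (ξ z))⁻¹ • ξ z) h h'))
    (hf2 : ∀ z, (z ∈ U → 1 ≤ nsq (ξ z)) → f z = ∞) : Continuous f := by
  classical
  have hD : IsOpen {z | z ∈ U ∧ nsq (ξ z) < 1} := by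
    rw [isOpen_iff_eventually]
    intro z₀ hz₀
    have h2 : ContinuousAt (fun z => nsq (ξ z)) z₀ :=
      continuous_nsq.continuousAt.comp (hξc.continuousAt (hU.mem_nhds hz₀.1))
    filter_upwards [h2.eventually (gt_mem_nhds hz₀.2), hU.mem_nhds hz₀.1] with z h3 h4
    exact ⟨h4, h3⟩
  rcases isEmpty_or_nonempty (Th n J) with hE | ⟨⟨x₀⟩⟩
  · have h1 : f = fun _ => ∞ := by
      funext z
      rcases h : f z with _ | x
      · rfl
      · exact (hE.false x).elim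
    rw [h1]; exact continuous_const
  have hex : ∀ z, ∃ x : Th n J, (z ∈ U → nsq (ξ z) < 1 → f z = OnePoint.some x ∧ x.P = Q z ∧
      x.v = (1 - nsq (ξ z))⁻¹ • ξ z) := by
    intro z
    by_cases hz : z ∈ U ∧ nsq (ξ z) < 1
    · obtain ⟨h, h', he⟩ := hf1 z hz.1 hz.2
      exact ⟨_, fun _ _ => ⟨he, rfl, rfl⟩⟩
    · exact ⟨x₀, fun h h' => absurd ⟨h, h'⟩ hz⟩
  choose s hs using hex
  refine continuous_onePoint hD (s := s) ?_ (fun z hz => (hs z hz.1 hz.2).1) ?_
    (N := fun x : Th n J => nsq x.v)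
    (fun C hC => bounded_of_continuous (continuous_nsq.comp Th.continuous_v) C hC) ?_
  · -- continuity on the good set
    have h1 : ContinuousOn (fun z => (Q z, (1 - nsq (ξ z))⁻¹ • ξ z))
        {z | z ∈ U ∧ nsq (ξ z) < 1} := by
      have h2 : ContinuousOn ξ {z | z ∈ U ∧ nsq (ξ z) < 1} := hξc.mono fun z hz => hz.1
      refine (hQc.mono fun z hz => hz.1).prodMk (ContinuousOn.smul (ContinuousOn.inv₀
        (continuousOn_const.sub (continuous_nsq.comp_continuousOn h2)) ?_) h2)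
      intro z hz h0
      have h3 : nsq (ξ z) < 1 := hz.2
      have h4 : 1 - nsq (ξ z) = 0 := h0
      linarith
    have hind : IsInducing (fun x : Th n J => (x.P, x.v)) := IsInducing.subtypeVal
    rw [hind.continuousOn_iff]
    refine h1.congr fun z hz => ?_
    have h3 := hs z hz.1 hz.2
    exact Prod.ext h3.2.1 h3.2.2
  · intro z hz
    refine hf2 z fun hzU => ?_
    by_contra hcon
    exact hz ⟨hzU, not_le.1 hcon⟩
  · intro z₀ hz₀ R
    by_cases hzU : z₀ ∈ U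
    · have h1 : 1 ≤ nsq (ξ z₀) := by
        by_contra hcon
        exact hz₀ ⟨hzU, not_le.1 hcon⟩
      obtain ⟨R', hR'0, hRR'⟩ : ∃ R' : ℝ, 0 ≤ R' ∧ R ≤ R' :=
        ⟨max R 0, le_max_right _ _, le_max_left _ _⟩
      have h2 : ContinuousAt (fun z => nsq (ξ z)) z₀ :=
        continuous_nsq.continuousAt.comp (hξc.continuousAt (hU.mem_nhds hzU))
      have h3 : 1 - 1 / (2 * (1 + R')) < 1 := by
        have : 0 < 1 / (2 * (1 + R')) := by positivity
        linarith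
      filter_upwards [h2.eventually (lt_mem_nhds (h3.trans_le h1))] with z hz hzD
      rw [(hs z hzD.1 hzD.2).2.2]
      exact hRR'.trans_lt (lt_nsq_cut hzD.2 hR'0 hz)
    · filter_upwards [hbd z₀ hzU] with z hz hzD
      exact absurd hzD.2 (not_lt.2 (hz hzD.1))

/-- **The version on `T × OnePoint V`**: the support is contained in `T × K₀` with `K₀ ⊆ V` compact and
`T × K₀ ⊆ U`. -/
theorem continuous_nsqCut_sphere {T V : Type*} [TopologicalSpace T] [TopologicalSpace V]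
    [T2Space V] {U : Set (T × V)} (hU : IsOpen U) {Q : T × V → Matrix J J ℂ}
    {ξ : T × V → J → ℂ} (hQc : ContinuousOn Q U) (hξc : ContinuousOn ξ U) {K₀ : Set V}
    (hK₀ : IsCompact K₀) (hK1 : ∀ z ∈ U, nsq (ξ z) < 1 → z.2 ∈ K₀)
    (hK2 : ∀ t, ∀ v ∈ K₀, (t, v) ∈ U) {f : T → OnePoint V → OnePoint (Th n J)}
    (hf0 : ∀ t, f t ∞ = ∞)
    (hf1 : ∀ t v, (t, v) ∈ U → nsq (ξ (t, v)) < 1 → ∃ h h', f t (OnePoint.some v) =
      OnePoint.some (Th.mk (Q (t, v)) ((1 - nsq (ξ (t, v)))⁻¹ • ξ (t, v)) h h'))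
    (hf2 : ∀ t v, ((t, v) ∈ U → 1 ≤ nsq (ξ (t, v))) → f t (OnePoint.some v) = ∞) :
    Continuous fun z : T × OnePoint V => f z.1 z.2 := by
  let φ : T × V → T × OnePoint V := Prod.map id OnePoint.some
  have hφ : IsOpenEmbedding φ := IsOpenEmbedding.id.prodMap OnePoint.isOpenEmbedding_coe
  rcases isEmpty_or_nonempty (T × V) with hE | ⟨⟨z₁⟩⟩
  · have h1 : (fun z : T × OnePoint V => f z.1 z.2) = fun _ => ∞ := by
      funext z
      rcases z with ⟨t, w⟩
      induction w using OnePoint.rec with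
      | infty => exact hf0 t
      | coe v => exact (hE.false (t, v)).elim
    rw [h1]; exact continuous_const
  let inv : T × OnePoint V → T × V := fun z =>
    (Option.map (fun v => (z.1, v)) z.2 : Option (T × V)).getD z₁
  have hinv : ∀ z, inv (φ z) = z := fun z => rfl
  refine continuous_nsqCut (U := φ '' U) (hφ.isOpenMap _ hU) (Q := fun z => Q (inv z))
    (ξ := fun z => ξ (inv z)) (continuousOn_inv hφ hinv hU hQc) (continuousOn_inv hφ hinv hU hξc)
    ?_ ?_ ?_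
  · rintro ⟨t, w⟩ hz
    have h1 : w ∉ (OnePoint.some '' K₀ : Set (OnePoint V)) := by
      rintro ⟨v, hv, rfl⟩
      exact hz ⟨(t, v), hK2 t v hv, rfl⟩
    have h2 : IsClosed (OnePoint.some '' K₀ : Set (OnePoint V)) :=
      OnePoint.isClosed_image_coe.2 ⟨hK₀.isClosed, hK₀⟩
    have h3 : ∀ᶠ z in 𝓝 (t, w), z.2 ∉ (OnePoint.some '' K₀ : Set (OnePoint V)) := by
      have h4 : Tendsto (fun z : T × OnePoint V => z.2) (𝓝 (t, w)) (𝓝 w) :=
        continuous_snd.continuousAt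
      exact h4.eventually (h2.isOpen_compl.mem_nhds h1)
    filter_upwards [h3] with z hz3
    rintro ⟨y, hy, rfl⟩
    by_contra hcon
    push Not at hcon
    exact hz3 ⟨y.2, hK1 y hy hcon, rfl⟩
  · rintro _ ⟨⟨t, v⟩, hy, rfl⟩ hlt
    exact hf1 t v hy hlt
  · rintro ⟨t, w⟩ hz
    induction w using OnePoint.rec with
    | infty => exact hf0 t
    | coe v => exact hf2 t v fun hv => hz ⟨(t, v), hv, rfl⟩

end

end Vale.Agent.P093.A
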