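import Vale.Agent.P093.A.ExitSplit

/-!
# P093, part A: weights from a labelled cube

`smallOn_cube` : the staircase weights of a map to a cube.
`smallOn_labelled` : the same with labels.
-/

open Set Filter
open scoped Topology

namespace Vale.Agent.P093.U

section Cube

variable {X : Type*} {E : Type*} [TopologicalSpace E] {p : E → X} {K : Set E}

theorem smallOn_coord {y : E → ℝ} (hy : ContinuousOn y K) {U₀ U₁ : Set X}
    (h0 : ∀ e ∈ K, y e < 1 → p e ∈ U₀) (h1 : ∀ e ∈ K, 0 < y e → p e ∈ U₁) :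
    SmallOn {U₀, U₁} p K (fun e => by
      classical exact if 0 < y e ∧ y e < 1 then 1 else 0) := by
  classical
  refine ⟨Bool, inferInstance, fun b e => if b then max 0 (min 1 (y e)) else
    1 - max 0 (min 1 (y e)), ?_, ?_, ?_, ?_, ?_⟩
  · rintro (_ | _)
    · simp only [Bool.false_eq_true, if_false]
      exact continuousOn_const.sub (continuousOn_const.sup (continuousOn_const.inf hy))
    · simp only [if_true]
      exact continuousOn_const.sup (continuousOn_const.inf hy)
  · rintro (_ | _) e _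
    · simp only [Bool.false_eq_true, if_false, sub_nonneg]
      exact max_le zero_le_one (min_le_left _ _)
    · simp only [if_true]
      exact le_max_left _ _
  · intro e _
    simp
  · rintro (_ | _)
    · refine ⟨U₀, by simp, fun e he hne => h0 e he ?_⟩
      by_contra hcon
      apply hne
      simp only [Bool.false_eq_true, if_false]
      rw [min_eq_left (not_lt.1 hcon), max_eq_right zero_le_one, sub_self]
    · refine ⟨U₁, by simp, fun e he hne => h1 e he ?_⟩
      by_contra hcon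
      apply hne
      simp only [if_true]
      rw [min_eq_right (by linarith [not_lt.1 hcon]), max_eq_left (not_lt.1 hcon)]
  · intro e _
    beta_reduce
    split_ifs with h
    · refine (Set.ncard_le_ncard (Set.subset_univ _) (Set.toFinite _)).trans ?_
      simp
    · rw [zero_add]
      rw [not_and_or, not_lt, not_lt] at h
      have hsub : ∃ b : Bool, {i : Bool | (if i = true then max 0 (min 1 (y e)) else
          1 - max 0 (min 1 (y e))) ≠ 0} ⊆ {b} := by
        rcases h with h | h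
        · refine ⟨false, ?_⟩
          rintro (_ | _) hb
          · rfl
          · exfalso
            apply hb
            rw [if_pos rfl, min_eq_right (by linarith), max_eq_left h]
        · refine ⟨true, ?_⟩
          rintro (_ | _) hb
          · exfalso
            apply hb
            rw [if_neg (by simp), min_eq_left h, max_eq_right zero_le_one, sub_self]
          · rfl
      obtain ⟨b, hb⟩ := hsub
      exact (Set.ncard_le_ncard hb (Set.toFinite _)).trans (by simp)

theorem smallOn_cube {I : Type} [Fintype I] {y : I → E → ℝ} (hy : ∀ i, ContinuousOn (y i) K)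
    {U₀ U₁ : I → Set X} (h0 : ∀ i, ∀ e ∈ K, y i e < 1 → p e ∈ U₀ i)
    (h1 : ∀ i, ∀ e ∈ K, 0 < y i e → p e ∈ U₁ i) {ord : E → ℕ}
    (ho : ∀ e ∈ K, {i | 0 < y i e ∧ y i e < 1}.ncard ≤ ord e) :
    SmallOn (joinCover fun i => {U₀ i, U₁ i}) p K ord := by
  classical
  refine (SmallOn.join fun i => smallOn_coord (hy i) (h0 i) (h1 i)).mono
    (fun V hV => ⟨V, hV, Subset.rfl⟩) Subset.rfl fun e he => ?_
  refine le_trans (le_of_eq ?_) (ho e he)
  rw [Set.ncard_eq_toFinset_card', Finset.card_eq_sum_ones, Set.toFinset_ofPred, Finset.sum_filter]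

/-- A continuous map `y` to a cube, carried by labelled coordinates `χ`, gives weights. -/
theorem smallOn_labelled [PseudoMetricSpace X] [CompactSpace X] {C : Type*} {I : Type} [Fintype I]
    {cs : Set C} {cc : I → C} (hcc : ∀ i, cc i ∈ cs) (hcs : ∀ c ∈ cs, ∃ i, cc i = c)
    {χ : C → X → ℝ} {𝒲 : Set (Set X)} {W : X → Set C → Set X} {δ₁ : ℝ} (hδ₁ : 0 < δ₁)
    (hW : ∀ x x', dist x x' < δ₁ → ∀ A : Set C,
      (∀ c ∈ A, c ∈ cs ∧ 1 / 8 < χ c x) →
      (∀ c ∈ cs, 7 / 8 < χ c x → c ∈ A) → W x A ∈ 𝒲 ∧ x' ∈ W x A ∧ W x' A = W x A)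
    (hp : ContinuousOn p K) {y : I → E → ℝ} (hy : ∀ i, ContinuousOn (y i) K)
    (h0 : ∀ i, ∀ e ∈ K, y i e < 1 → χ (cc i) (p e) ≤ 7 / 8)
    (h1 : ∀ i, ∀ e ∈ K, 0 < y i e → 1 / 8 < χ (cc i) (p e)) {ord : E → ℕ}
    (ho : ∀ e ∈ K, {i | 0 < y i e ∧ y i e < 1}.ncard ≤ ord e) : SmallOn 𝒲 p K ord := by
  classical
  rcases isEmpty_or_nonempty X with hX | ⟨⟨x₀⟩⟩
  · -- `K` is empty
    have hK : ∀ e, e ∉ K := fun e _ => hX.elim (p e)
    refine ⟨Empty, inferInstance, fun i => i.elim, fun i => i.elim, fun i => i.elim,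
      fun e he => absurd he (hK e), fun i => i.elim, fun e he => absurd he (hK e)⟩
  have hne : 𝒲.Nonempty := by
    refine ⟨_, (hW x₀ x₀ (by simpa using hδ₁) {c | c ∈ cs ∧ 7 / 8 < χ c x₀} ?_ ?_).1⟩
    · rintro c ⟨hc, h⟩
      exact ⟨hc, by linarith⟩
    · exact fun c hc h => ⟨hc, h⟩
  refine SmallOn.split hp (smallOn_cube (U₀ := fun i => {x | χ (cc i) x ≤ 7 / 8})
    (U₁ := fun i => {x | 1 / 8 < χ (cc i) x}) hy h0 h1 ho) ?_ hne
  rintro V ⟨f, hf, rfl⟩
  refine ⟨fun x => W x (cc '' {i | f i = {x | 1 / 8 < χ (cc i) x}}), δ₁, hδ₁,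
    fun x hx x' _ hd => hW x x' hd _ ?_ ?_⟩
  · rintro c ⟨i, hi, rfl⟩
    have h2 := mem_iInter.1 hx i
    rw [show f i = {x | 1 / 8 < χ (cc i) x} from hi] at h2
    exact ⟨hcc i, h2⟩
  · intro c hc h7
    obtain ⟨i, rfl⟩ := hcs c hc
    refine ⟨i, ?_, rfl⟩
    rcases hf i with h2 | h2
    · exfalso
      have h3 := mem_iInter.1 hx i
      rw [h2] at h3
      exact absurd h7 (not_lt.2 h3)
    · exact h2

end Cube

end Vale.Agent.P093.U
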