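import Vale.Agent.P093.U.Stair

/-!
# P093, part A: weights from a labelled cube

`SmallOn.split` : passing from a family of sets to a family of labels which are locally constant on
the sets of the first family.
-/

open Set Filter
open scoped Topology

namespace Vale.Agent.P093.U

section Split

variable {X : Type*} {E : Type*} [TopologicalSpace E]

/-- restriction of a weight to a relatively clopen piece of its support -/
theorem continuousOn_piece {K : Set E} {w : E → ℝ} (hw : ContinuousOn w K)
    {P : E → Prop} [DecidablePred P]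
    (hP : ∀ e ∈ K, w e ≠ 0 → ∀ᶠ e' in 𝓝[K] e, w e' ≠ 0 → (P e' ↔ P e)) :
    ContinuousOn (fun e => if P e then w e else 0) K := by
  intro e he
  by_cases h0 : w e = 0
  · have h1 : (fun e => if P e then w e else 0) e = 0 := by
      by_cases h : P e <;> simp [h, h0]
    unfold ContinuousWithinAt
    rw [h1]
    have h2 : Tendsto w (𝓝[K] e) (𝓝 0) := by
      have := hw e he
      unfold ContinuousWithinAt at this
      rwa [h0] at this
    refine squeeze_zero_norm (a := fun e => |w e|) (fun e' => ?_) (by simpa using h2.abs)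
    by_cases h : P e' <;> simp [h]
  · have h1 := hP e he h0
    by_cases hPe : P e
    · refine (hw e he).congr_of_eventuallyEq ?_ (by simp [hPe])
      filter_upwards [h1] with e' h2
      by_cases h3 : w e' = 0
      · simp [h3]
      · rw [if_pos ((h2 h3).2 hPe)]
    · refine (continuousWithinAt_const (b := (0 : ℝ))).congr_of_eventuallyEq ?_ (by simp [hPe])
      filter_upwards [h1] with e' h2
      by_cases h3 : w e' = 0
      · simp [h3]
      · rw [if_neg (fun h => hPe ((h2 h3).1 h))]

/-- `SmallOn` for locally constant labels. -/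
theorem SmallOn.split [PseudoMetricSpace X] [CompactSpace X] {𝒱 𝒲 : Set (Set X)} {p : E → X}
    {K : Set E} {ord : E → ℕ} (hp : ContinuousOn p K) (h : SmallOn 𝒱 p K ord)
    (hs : ∀ V ∈ 𝒱, ∃ (G : X → Set X) (δ : ℝ), 0 < δ ∧ ∀ x ∈ V, ∀ x' ∈ V, dist x x' < δ →
      G x ∈ 𝒲 ∧ x' ∈ G x ∧ G x' = G x) (hne : 𝒲.Nonempty) : SmallOn 𝒲 p K ord := by
  classical
  obtain ⟨ι, _, w, h1, h2, h3, h4, h5⟩ := h
  choose V hV hpV using h4
  choose G δ hδ hG using fun i => hs (V i) (hV i)
  -- finitely many values
  have hfin : ∀ i, (G i '' (V i)).Finite := by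
    intro i
    obtain ⟨t, -, ht, htc⟩ := finite_cover_balls_of_compact (isCompact_univ (X := X))
      (half_pos (hδ i))
    have hsub : G i '' (V i) ⊆ ⋃ z ∈ t, {S | ∃ x ∈ V i, x ∈ Metric.ball z (δ i / 2) ∧ G i x = S} := by
      rintro S ⟨x, hx, rfl⟩
      obtain ⟨z, hz, hxz⟩ := mem_iUnion₂.1 (htc (mem_univ x))
      exact mem_iUnion₂.2 ⟨z, hz, x, hx, hxz, rfl⟩
    refine (ht.biUnion fun z _ => Set.Subsingleton.finite ?_).subset hsub
    rintro S ⟨x, hx, hxz, rfl⟩ S' ⟨x', hx', hxz', rfl⟩
    refine ((hG i x hx x' hx' ?_).2.2).symm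
    rw [Metric.mem_ball] at hxz hxz'
    have := dist_triangle_right x x' z
    linarith
  have hfs : ∀ i, Fintype (G i '' (V i)) := fun i => (hfin i).fintype
  let eq : ∀ i, Fin (Fintype.card (G i '' (V i))) ≃ (G i '' (V i)) := fun i =>
    (Fintype.equivFin _).symm
  have hcont : ∀ i (S : Set X), ContinuousOn (fun e => if G i (p e) = S then w i e else 0) K := by
    intro i S
    refine continuousOn_piece (h1 i) fun e he hne => ?_
    have h6 : ∀ᶠ e' in 𝓝[K] e, dist (p e) (p e') < δ i := by
      have := (hp e he).eventually (Metric.ball_mem_nhds (p e) (hδ i))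
      filter_upwards [this] with e' he'
      rw [dist_comm]
      exact he'
    filter_upwards [h6, self_mem_nhdsWithin] with e' h7 h8 h9
    rw [(hG i _ (hpV i e he hne) _ (hpV i e' h8 h9) h7).2.2]
  have hval : ∀ i, ∀ e ∈ K, w i e ≠ 0 → ∃ j, ((eq i j : G i '' (V i)) : Set X) = G i (p e) :=
    fun i e he hne => ⟨(eq i).symm ⟨_, _, hpV i e he hne, rfl⟩, by simp⟩
  refine ⟨Σ i, Fin (Fintype.card (G i '' (V i))), inferInstance,
    fun s e => if G s.1 (p e) = (eq s.1 s.2 : Set X) then w s.1 e else 0,
    fun s => hcont _ _, fun s e he => ?_, fun e he => ?_, fun s => ?_, fun e he => ?_⟩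
  · beta_reduce
    split_ifs
    · exact h2 _ e he
    · exact le_rfl
  · rw [Fintype.sum_sigma, ← h3 e he]
    refine Finset.sum_congr rfl fun i _ => ?_
    by_cases h0 : w i e = 0
    · simp [h0]
    · obtain ⟨j, hj⟩ := hval i e he h0
      rw [Finset.sum_eq_single j]
      · beta_reduce
        rw [if_pos hj.symm]
      · intro j' _ hjj
        beta_reduce
        rw [if_neg]
        intro h
        exact hjj ((eq i).injective (Subtype.ext (h.symm.trans hj.symm)))
      · intro h
        exact absurd (Finset.mem_univ j) h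
  · obtain ⟨i, j⟩ := s
    by_cases hem : ∃ e ∈ K, (if G i (p e) = (eq i j : Set X) then w i e else 0) ≠ 0
    · obtain ⟨e, he, hne⟩ := hem
      have h6 : G i (p e) = (eq i j : Set X) ∧ w i e ≠ 0 := by
        by_contra hcon
        apply hne
        by_cases h7 : G i (p e) = (eq i j : Set X)
        · rw [if_pos h7]
          by_contra h8
          exact hcon ⟨h7, h8⟩
        · rw [if_neg h7]
      have hx := hpV i e he h6.2
      refine ⟨G i (p e), (hG i _ hx _ hx (by simpa using hδ i)).1, fun e' he' hne' => ?_⟩
      change (if G i (p e') = (eq i j : Set X) then w i e' else 0) ≠ 0 at hne'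
      have h7 : G i (p e') = (eq i j : Set X) ∧ w i e' ≠ 0 := by
        by_contra hcon
        apply hne'
        by_cases h7 : G i (p e') = (eq i j : Set X)
        · rw [if_pos h7]
          by_contra h8
          exact hcon ⟨h7, h8⟩
        · rw [if_neg h7]
      rw [h6.1, ← h7.1]
      have hx' := hpV i e' he' h7.2
      exact (hG i _ hx' _ hx' (by simpa using hδ i)).2.1
    · obtain ⟨S, hS⟩ := hne
      push Not at hem
      exact ⟨S, hS, fun e he hne' => absurd (hem e he) hne'⟩
  · refine le_trans ?_ (h5 e he)
    refine Set.ncard_le_ncard_of_injOn (fun s => s.1) ?_ ?_ (Set.toFinite _)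
    · rintro ⟨i, j⟩ hs
      change (if G i (p e) = (eq i j : Set X) then w i e else 0) ≠ 0 at hs
      intro h0
      apply hs
      change w i e = 0 at h0
      simp [h0]
    · rintro ⟨i, j⟩ hs ⟨i', j'⟩ hs' hii
      change i = i' at hii
      subst hii
      change (if G i (p e) = (eq i j : Set X) then w i e else 0) ≠ 0 at hs
      change (if G i (p e) = (eq i j' : Set X) then w i e else 0) ≠ 0 at hs'
      have h6 : G i (p e) = (eq i j : Set X) := by
        by_contra h
        exact hs (if_neg h)
      have h7 : G i (p e) = (eq i j' : Set X) := by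
        by_contra h
        exact hs' (if_neg h)
      have : j = j' := (eq i).injective (Subtype.ext (h6.symm.trans h7))
      rw [this]

end Split

end Vale.Agent.P093.U
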