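import Vale.Agent.P093.Final.Good
import Vale.Agent.P251.G.Gr

/-!
# P093, part A: the common zero set of the linear sections

`ZSET M F` is the set of all `(x, P, Q)` where `P` is a line in `ℂ ^ (p + 1)` and `Q i` are lines in
`ℂ ^ 2` (rank one projections) such that `M x` vanishes on `P` and `F i x` maps `P` into `Q i`.

`ZThm` is the interface between the two halves of part A: weights of order `d` on the zero set give
`CSmall` of order `d`.
-/

open Set
open Vale.Agent.P251.G (Gr)

namespace Vale.Agent.P093.A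

universe u

/-- a line in `ℂ ^ (p + 1)` and a line in `ℂ ^ 2` for every block -/
abbrev Base (p : ℕ) (I : Type) : Type := Gr 1 (Fin (p + 1)) × (I → Gr 1 (Fin 2))

/-- the common zero set of the sections -/
def ZSET {X : Type*} {p : ℕ} {I : Type} (M : X → Matrix (Fin p) (Fin (p + 1)) ℂ)
    (F : I → X → Matrix (Fin 2) (Fin (p + 1)) ℂ) : Set (X × Base p I) :=
  {z | M z.1 * z.2.1.P = 0 ∧ ∀ i, (1 - (z.2.2 i).P) * F i z.1 * z.2.1.P = 0}

theorem isClosed_ZSET {X : Type*} [TopologicalSpace X] {p : ℕ} {I : Type}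
    {M : X → Matrix (Fin p) (Fin (p + 1)) ℂ} {F : I → X → Matrix (Fin 2) (Fin (p + 1)) ℂ}
    (hM : Continuous M) (hF : ∀ i, Continuous (F i)) : IsClosed (ZSET M F) := by
  have h0 : Continuous fun z : X × Base p I => z.2.1.P :=
    Vale.Agent.P251.G.Gr.continuous_P.comp (continuous_fst.comp continuous_snd)
  have h1 : ∀ i, Continuous fun z : X × Base p I => (z.2.2 i).P := fun i =>
    Vale.Agent.P251.G.Gr.continuous_P.comp
      ((continuous_apply i).comp (continuous_snd.comp continuous_snd))
  have h2 : ZSET M F = {z | M z.1 * z.2.1.P = 0} ∩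
      ⋂ i, {z | (1 - (z.2.2 i).P) * F i z.1 * z.2.1.P = 0} := by
    ext z
    simp [ZSET]
  rw [h2]
  refine IsClosed.inter (isClosed_eq ((hM.comp continuous_fst).matrix_mul h0) continuous_const)
    (isClosed_iInter fun i => isClosed_eq ?_ continuous_const)
  exact ((continuous_const.sub (h1 i)).matrix_mul ((hF i).comp continuous_fst)).matrix_mul h0

/-- **interface between the halves of part A**: weights of order `d` on the zero set of the sections
`(M, F)` give `CSmall` of order `d` for a Grassmannian Thom space. -/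
def ZThm : Prop :=
  ∀ (X : Type u) [TopologicalSpace X] [CompactSpace X] [T2Space X] (p : ℕ) (I : Type)
    [Fintype I] [DecidableEq I] (M : X → Matrix (Fin p) (Fin (p + 1)) ℂ)
    (F : I → X → Matrix (Fin 2) (Fin (p + 1)) ℂ) (_ : Continuous M) (_ : ∀ i, Continuous (F i))
    (𝒲 : Set (Set X)) (_ : ∀ V ∈ 𝒲, IsOpen V) (d : ℕ)
    (_ : U.SmallOn 𝒲 (Prod.fst : X × Base p I → X) (ZSET M F) (fun _ => d)),
    ∃ (t : ℕ) (C : Vale.Agent.P251.St.Space) (w : (Fin t → ℝ) → C.carrier),
      Topology.IsClosedEmbedding w ∧ Final.ThGood C w ∧ U.CSmall 𝒲 C w d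

end Vale.Agent.P093.A
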