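import Vale.Agent.P093.Final.Static
import Vale.Agent.P093.A.ZSet
import Vale.Agent.P093.A.MDS
import Vale.Agent.P093.A.ExitHopf
import Vale.Agent.P093.A.ExitCube

/-!
# P093, part A: weights on the zero set, and the linear static theorem

`smallOn_zset` : under the hypotheses of `Final.StaticThm`, the cover has weights of order `≤ D` on
the common zero set of the sections. `staticThm_of_zThm : ZThm → StaticThm`.
-/

open Set Matrix
open Vale.Agent.P251.G (Gr IsProj)
open Vale.Agent.P093.Hom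

namespace Vale.Agent.P093.A

universe u

section

variable {X : Type u} {κ a m : ℕ}

/-- the matrix of the block `(γ, k)` -/
noncomputable def blkMat (F : Fin m → Fin κ → Fin 2 → X → (Fin (2 * κ * a + 1) → ℂ) →ₗ[ℂ] ℂ)
    (i : Fin m × Fin κ) (x : X) : Matrix (Fin 2) (Fin (2 * κ * a + 1)) ℂ :=
  Matrix.of fun e j => F i.1 i.2 e x (Pi.single j 1)

/-- all the linear forms -/
noncomputable def packF (F : Fin m → Fin κ → Fin 2 → X → (Fin (2 * κ * a + 1) → ℂ) →ₗ[ℂ] ℂ)
    (x : X) : (Fin (2 * κ * a + 1) → ℂ) →ₗ[ℂ] (Fin m → Fin κ × Fin 2 → ℂ) :=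
  LinearMap.pi fun γ => LinearMap.pi fun s => F γ s.1 s.2 x

/-- the matrix of the MDS section -/
noncomputable def mdsMat (F : Fin m → Fin κ → Fin 2 → X → (Fin (2 * κ * a + 1) → ℂ) →ₗ[ℂ] ℂ)
    (x : X) : Matrix (Fin (2 * κ * a)) (Fin (2 * κ * a + 1)) ℂ :=
  Matrix.of fun i j => mds (Fin m) (Fin κ × Fin 2) (2 * κ * a) (packF F x (Pi.single j 1)) i

theorem linear_eq_sum {n : ℕ} {W : Type*} [AddCommGroup W] [Module ℂ W]
    (L : (Fin n → ℂ) →ₗ[ℂ] W) (q : Fin n → ℂ) :
    L q = ∑ j, q j • L (Pi.single j 1) := by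
  conv_lhs => rw [pi_eq_sum_univ' q]
  rw [map_sum]
  exact Finset.sum_congr rfl fun j _ => by rw [map_smul]

theorem blkMat_mul (F : Fin m → Fin κ → Fin 2 → X → (Fin (2 * κ * a + 1) → ℂ) →ₗ[ℂ] ℂ)
    (γ : Fin m) (k : Fin κ) (x : X) (P : Matrix (Fin (2 * κ * a + 1)) (Fin (2 * κ * a + 1)) ℂ)
    (e : Fin 2) (b : Fin (2 * κ * a + 1)) :
    (blkMat F (γ, k) x * P) e b = F γ k e x (fun j => P j b) := by
  rw [linear_eq_sum, Matrix.mul_apply]
  exact Finset.sum_congr rfl fun j _ => by simp [blkMat, mul_comm]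

theorem mdsMat_mul (F : Fin m → Fin κ → Fin 2 → X → (Fin (2 * κ * a + 1) → ℂ) →ₗ[ℂ] ℂ)
    (x : X) (P : Matrix (Fin (2 * κ * a + 1)) (Fin (2 * κ * a + 1)) ℂ)
    (b : Fin (2 * κ * a + 1)) (i : Fin (2 * κ * a)) :
    (mdsMat F x * P) i b = mds (Fin m) (Fin κ × Fin 2) (2 * κ * a) (packF F x fun j => P j b) i := by
  rw [linear_eq_sum (packF F x), map_sum, Matrix.mul_apply, Finset.sum_apply]
  exact Finset.sum_congr rfl fun j _ => by simp [mdsMat, mul_comm]

end

section

variable {X : Type u} [MetricSpace X] [CompactSpace X] {C : Type} {κ a m : ℕ}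

open scoped Classical in
/-- weights of order `≤ D` on the zero set -/
theorem smallOn_zset
    (χ : C → X → ℝ) (hχ : ∀ c, Continuous (χ c)) (crd : Fin m → ℕ → C) (ss : List C)
    (F : Fin m → Fin κ → Fin 2 → X → (Fin (2 * κ * a + 1) → ℂ) →ₗ[ℂ] ℂ)
    (hF : ∀ γ k e, Continuous fun z : X × (Fin (2 * κ * a + 1) → ℂ) => F γ k e z.1 z.2)
    (hne : ∀ x q, q ≠ 0 → ∃ γ k e, F γ k e x q ≠ 0)
    (hopf : ∀ γ (k : Fin κ) x q,
      rho k / 2 ≤ rad (nF (fun i x => χ (crd γ i) x - 1 / 2) rho k)
        (fun x => χ (crd γ (2 * k + 1)) x - 1 / 2) (fun x => χ (crd γ (2 * k + 2)) x - 1 / 2) x →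
      HopfRel (nF (fun i x => χ (crd γ i) x - 1 / 2) rho k x)
        (χ (crd γ (2 * k + 1)) x - 1 / 2) (χ (crd γ (2 * k + 2)) x - 1 / 2)
        (F γ k 0 x q) (F γ k 1 x q))
    (actv : Fin m → Set X) (hact1 : ∀ γ k e x q, F γ k e x q ≠ 0 → x ∈ actv γ)
    (hact2 : ∀ γ x, x ∉ actv γ → ∀ i ≤ 2 * κ, χ (crd γ i) x ≤ 1 / 8)
    (𝒲 : Set (Set X)) (W : X → Set C → Set X) (δ₁ : ℝ) (hδ₁ : 0 < δ₁)
    (hW : ∀ x x', dist x x' < δ₁ → ∀ A : Set C,
      (∀ c ∈ A, c ∈ coords κ crd ss ∧ 1 / 8 < χ c x) →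
      (∀ c ∈ coords κ crd ss, 7 / 8 < χ c x → c ∈ A) → W x A ∈ 𝒲 ∧ x' ∈ W x A ∧ W x' A = W x A)
    (D : ℕ) (hD : ∀ x, (2 * κ + 1) * (Finset.univ.filter fun γ => x ∈ actv γ).card +
      (ss.filter fun c => 1 / 8 < χ c x ∧ χ c x < 7 / 8).length ≤ D + a + 1) :
    U.SmallOn 𝒲 (Prod.fst : X × Base (2 * κ * a) (Fin m × Fin κ) → X)
      (ZSET (mdsMat F) (blkMat F)) (fun _ => D) := by
  -- the margin
  have hFp : Continuous fun z : X × (Fin (2 * κ * a + 1) → ℂ) => packF F z.1 z.2 :=
    continuous_pi fun γ => continuous_pi fun s => hF γ s.1 s.2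
  obtain ⟨c, hc, hmar⟩ := exists_margin (ι := Fin m) (σ := Fin κ × Fin 2) (p := 2 * κ * a) (a := a)
    (by simp only [Fintype.card_prod, Fintype.card_fin]; rw [mul_comm a, mul_comm κ 2])
    (packF F) hFp (fun x q hq h0 => by
      obtain ⟨γ, k, e, hne'⟩ := hne x q hq
      exact hne' (congrFun (congrFun h0 γ) (k, e)))
  obtain ⟨c', hc'⟩ : ∃ c' : ℝ, c' = c / (2 * κ * a + 1 : ℕ) := ⟨_, rfl⟩
  have hc'0 : 0 < c' := by rw [hc']; positivity
  let Z : Type u := ZSET (mdsMat F) (blkMat F)
  -- at every point of the zero set more than `a` groups exit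
  have hexit : ∀ z : Z, ∃ S : Finset (Fin m), a < S.card ∧ ∀ γ ∈ S, z.1.1 ∈ actv γ ∧
      ∃ k e b, c' ≤ ‖(blkMat F (γ, k) z.1.1 * z.1.2.1.P) e b‖ := by
    rintro ⟨⟨x, P, Q⟩, hz1, hz2⟩
    have htr := P.isProj.trace
    obtain ⟨b, hb⟩ : ∃ b, 1 / (2 * κ * a + 1 : ℕ) ≤ ‖P.P b b‖ := by
      by_contra hcon
      push Not at hcon
      have h1 : ‖P.P.trace‖ < 1 := by
        calc ‖P.P.trace‖ ≤ ∑ b, ‖P.P b b‖ := norm_sum_le _ _
          _ < ∑ _b : Fin (2 * κ * a + 1), (1 / (2 * κ * a + 1 : ℕ) : ℝ) :=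
            Finset.sum_lt_sum_of_nonempty Finset.univ_nonempty fun b _ => hcon b
          _ = 1 := by
            rw [Finset.sum_const, Finset.card_univ, Fintype.card_fin, nsmul_eq_mul]
            field_simp
      rw [htr] at h1
      simp at h1
    have hq1 : 1 / (2 * κ * a + 1 : ℕ) ≤ ‖fun j => P.P j b‖ :=
      hb.trans (norm_le_pi_norm (fun j => P.P j b) b)
    have hq0 : (fun j => P.P j b) ≠ 0 := by
      intro h0
      rw [h0, norm_zero] at hq1
      have : (0 : ℝ) < 1 / (2 * κ * a + 1 : ℕ) := by positivity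
      linarith
    have hmds : mds (Fin m) (Fin κ × Fin 2) (2 * κ * a) (packF F x fun j => P.P j b) = 0 := by
      funext i
      rw [← mdsMat_mul]
      have := congrFun (congrFun hz1 i) b
      simpa using this
    obtain ⟨S, hS1, hS2⟩ := hmar x _ hq0 (by rw [hmds, norm_zero]; positivity)
    refine ⟨S, hS1, fun γ hγ => ?_⟩
    have h1 := hS2 γ hγ
    have h2 : c' ≤ ‖packF F x (fun j => P.P j b) γ‖ := by
      refine le_trans ?_ h1
      rw [hc', div_eq_mul_one_div]
      exact mul_le_mul_of_nonneg_left hq1 hc.le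
    obtain ⟨s, hs⟩ : ∃ s, c' ≤ ‖packF F x (fun j => P.P j b) γ s‖ := by
      by_contra hcon
      push Not at hcon
      exact absurd h2 (not_le.2 ((pi_norm_lt_iff hc'0).2 hcon))
    have h3 : packF F x (fun j => P.P j b) γ s = F γ s.1 s.2 x fun j => P.P j b := rfl
    refine ⟨hact1 γ s.1 s.2 x (fun j => P.P j b) ?_, s.1, s.2, b, ?_⟩
    · rw [← h3, ← norm_pos_iff]
      exact hc'0.trans_le hs
    · rw [blkMat_mul, ← h3]
      exact hs
  -- the exit lemma for every group
  have hcP : Continuous fun z : Z => z.1.2.1.P :=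
    Gr.continuous_P.comp (continuous_fst.comp (continuous_snd.comp continuous_subtype_val))
  have hcx : Continuous fun z : Z => z.1.1 := continuous_fst.comp continuous_subtype_val
  have hg : ∀ γ : Fin m, ∃ g : ℕ → Z → ℝ, (∀ j, Continuous (g j)) ∧
      (∀ j ≤ 2 * κ, ∀ z, 1 / 8 ≤ χ (crd γ j) z.1.1 - 1 / 2 → 1 / 8 ≤ g j z) ∧
      (∀ j ≤ 2 * κ, ∀ z, χ (crd γ j) z.1.1 - 1 / 2 ≤ -1 / 8 → g j z ≤ -1 / 8) ∧
      ∀ z, (∃ k e b, c' ≤ ‖(blkMat F (γ, k) z.1.1 * z.1.2.1.P) e b‖) →
        ∃ j ≤ 2 * κ, 1 / 8 ≤ |g j z| := by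
    intro γ
    refine Exit.exit_hopf (κ := κ) (B := Fin (2 * κ * a + 1)) hc'0
      (fun j (z : Z) => χ (crd γ j) z.1.1 - 1 / 2)
      (fun j => ((hχ _).comp hcx).sub continuous_const)
      (fun k e b (z : Z) => (blkMat F (γ, k) z.1.1 * z.1.2.1.P) e b) ?_
      (fun k (z : Z) => (z.1.2.2 (γ, k)).P) ?_ ?_ ?_ ?_
    · intro k e b
      simp only [blkMat_mul]
      exact (hF γ k e).comp (hcx.prodMk (continuous_pi fun j => hcP.matrix_elem j b))
    · intro k
      exact Gr.continuous_P.comp ((continuous_apply _).comp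
        (continuous_snd.comp (continuous_snd.comp continuous_subtype_val)))
    · intro k z
      have h := (z.1.2.2 (γ, k)).isProj
      exact ⟨h.idem, h.herm, by simpa using h.trace⟩
    · intro k b z
      have h := z.2.2 (γ, k)
      rw [Matrix.sub_mul, Matrix.sub_mul, Matrix.one_mul, sub_eq_zero] at h
      have h' := congrArg (fun A : Matrix (Fin 2) (Fin (2 * κ * a + 1)) ℂ => fun e => A e b) h
      rw [Matrix.mul_assoc] at h'
      exact h'.symm
    · intro k b z hr
      have hnF : ∀ (l : ℕ) (z : Z), nF (fun j (z : Z) => χ (crd γ j) z.1.1 - 1 / 2) rho l z =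
          nF (fun i x => χ (crd γ i) x - 1 / 2) rho l z.1.1 := by
        intro l
        induction l with
        | zero => intro z; rfl
        | succ l ih =>
          intro z
          simp only [nF, rad, ih z]
      have h := hopf γ k z.1.1 (fun j => z.1.2.1.P j b)
      simp only [rad, hnF] at hr
      simp only [rad] at h
      have h2 := h hr
      simp only [blkMat_mul, hnF]
      exact h2
  choose g hgc hg1 hg2 hg3 using hg
  -- the new cube coordinates
  let I : Type := (Fin m × Fin (2 * κ + 1)) ⊕ Fin ss.length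
  let y : I → (X × Base (2 * κ * a) (Fin m × Fin κ)) → ℝ := fun i z =>
    if hz : z ∈ ZSET (mdsMat F) (blkMat F) then
      Sum.elim (fun i => max 0 (min 1 (4 * g i.1 i.2 ⟨z, hz⟩ + 1 / 2)))
        (fun i => max 0 (min 1 (4 / 3 * (χ (ss.get i) z.1 - 1 / 8)))) i
    else 0
  let cc : I → C := Sum.elim (fun i => crd i.1 i.2) fun i => ss.get i
  have hyl : ∀ i (z : Z), y (Sum.inl i) z.1 = max 0 (min 1 (4 * g i.1 i.2 z + 1 / 2)) :=
    fun i z => by simp only [y]; rw [dif_pos z.2]; rfl
  have hyr : ∀ i (z : Z), y (Sum.inr i) z.1 = max 0 (min 1 (4 / 3 * (χ (ss.get i) z.1.1 - 1 / 8))) :=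
    fun i z => by simp only [y]; rw [dif_pos z.2]; rfl
  refine U.smallOn_labelled (C := C) (I := I) (cs := {c | c ∈ coords κ crd ss}) (cc := cc)
    ?_ ?_ hδ₁ hW continuous_fst.continuousOn (y := y) ?_ ?_ ?_ ?_
  · rintro (i | i)
    · simp only [cc, coords, Sum.elim_inl, mem_ofPred_eq, List.mem_append, List.mem_flatMap,
        List.mem_map, List.mem_range, List.mem_finRange, true_and]
      exact Or.inl ⟨i.1, i.2, i.2.2, rfl⟩
    · simp only [cc, coords, Sum.elim_inr, mem_ofPred_eq, List.mem_append]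
      exact Or.inr (List.get_mem _ _)
  · intro c₀ hc₀
    simp only [coords, mem_ofPred_eq, List.mem_append, List.mem_flatMap, List.mem_map,
      List.mem_range, List.mem_finRange, true_and] at hc₀
    rcases hc₀ with ⟨γ, j, hj, rfl⟩ | h
    · exact ⟨Sum.inl (γ, ⟨j, hj⟩), rfl⟩
    · obtain ⟨i, hi⟩ := List.mem_iff_get.1 h
      exact ⟨Sum.inr i, hi⟩
  · intro i
    rw [continuousOn_iff_continuous_domRestrict]
    rcases i with i | i
    · have : (ZSET (mdsMat F) (blkMat F)).domRestrict (y (Sum.inl i)) =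
          fun z : Z => max 0 (min 1 (4 * g i.1 i.2 z + 1 / 2)) := funext fun z => hyl i z
      rw [this]
      exact continuous_const.max (continuous_const.min
        ((continuous_const.mul (hgc i.1 i.2)).add continuous_const))
    · have : (ZSET (mdsMat F) (blkMat F)).domRestrict (y (Sum.inr i)) =
          fun z : Z => max 0 (min 1 (4 / 3 * (χ (ss.get i) z.1.1 - 1 / 8))) :=
        funext fun z => hyr i z
      rw [this]
      exact continuous_const.max (continuous_const.min
        (continuous_const.mul (((hχ _).comp hcx).sub continuous_const)))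
  · rintro (i | i) e he h
    · rw [hyl i ⟨e, he⟩] at h
      have h1 : 4 * g i.1 i.2 ⟨e, he⟩ + 1 / 2 < 1 := by
        by_contra hcon
        rw [min_eq_left (not_lt.1 hcon), max_eq_right zero_le_one] at h
        exact lt_irrefl _ h
      have h2 := fun h => hg1 i.1 i.2 (by omega) ⟨e, he⟩ h
      by_contra hcon
      have h3 := h2 (by simp only [cc, Sum.elim_inl] at hcon; dsimp only; linarith [not_le.1 hcon])
      linarith
    · rw [hyr i ⟨e, he⟩] at h
      have h1 : 4 / 3 * (χ (ss.get i) e.1 - 1 / 8) < 1 := by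
        by_contra hcon
        rw [min_eq_left (not_lt.1 hcon), max_eq_right zero_le_one] at h
        exact lt_irrefl _ h
      simp only [cc, Sum.elim_inr]
      linarith
  · rintro (i | i) e he h
    · rw [hyl i ⟨e, he⟩] at h
      have h1 : 0 < 4 * g i.1 i.2 ⟨e, he⟩ + 1 / 2 := by
        by_contra hcon
        rw [max_eq_left ((min_le_right _ _).trans (not_lt.1 hcon))] at h
        exact lt_irrefl _ h
      have h2 := fun h => hg2 i.1 i.2 (by omega) ⟨e, he⟩ h
      by_contra hcon
      have h3 := h2 (by simp only [cc, Sum.elim_inl] at hcon; dsimp only; linarith [not_lt.1 hcon])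
      linarith
    · rw [hyr i ⟨e, he⟩] at h
      have h1 : 0 < 4 / 3 * (χ (ss.get i) e.1 - 1 / 8) := by
        by_contra hcon
        rw [max_eq_left ((min_le_right _ _).trans (not_lt.1 hcon))] at h
        exact lt_irrefl _ h
      simp only [cc, Sum.elim_inr]
      linarith
  · -- the count
    intro e he
    obtain ⟨S, hS, hSe⟩ := hexit ⟨e, he⟩
    obtain ⟨T, hT⟩ : ∃ T : Finset (Fin m), T = Finset.univ.filter fun γ => e.1 ∈ actv γ := ⟨_, rfl⟩
    have hST : S ⊆ T := fun γ hγ => by
      rw [hT, Finset.mem_filter]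
      exact ⟨Finset.mem_univ _, (hSe γ hγ).1⟩
    -- the free coordinates of the groups
    let L : Finset (Fin m × Fin (2 * κ + 1)) := Finset.univ.filter fun i =>
      0 < y (Sum.inl i) e ∧ y (Sum.inl i) e < 1
    let R : Finset (Fin ss.length) := Finset.univ.filter fun i =>
      0 < y (Sum.inr i) e ∧ y (Sum.inr i) e < 1
    have hcard : {i | 0 < y i e ∧ y i e < 1}.ncard = L.card + R.card := by
      rw [Set.ncard_eq_toFinset_card', ← Finset.card_disjSum]
      congr 1
      ext i
      rcases i with i | i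
      · rw [Finset.inl_mem_disjSum]; simp [L]
      · rw [Finset.inr_mem_disjSum]; simp [R]
    have hgs : ∀ i ∈ L, |g i.1 i.2 ⟨e, he⟩| < 1 / 8 := by
      intro i hi
      have h := (Finset.mem_filter.1 hi).2
      rw [hyl i ⟨e, he⟩] at h
      have h1 : 4 * g i.1 i.2 ⟨e, he⟩ + 1 / 2 < 1 := by
        by_contra hcon
        rw [min_eq_left (not_lt.1 hcon), max_eq_right zero_le_one] at h
        exact lt_irrefl _ h.2
      have h2 : 0 < 4 * g i.1 i.2 ⟨e, he⟩ + 1 / 2 := by
        by_contra hcon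
        rw [max_eq_left ((min_le_right _ _).trans (not_lt.1 hcon))] at h
        exact lt_irrefl _ h.1
      rw [abs_lt]
      constructor <;> linarith
    have hLT : ∀ i ∈ L, i.1 ∈ T := by
      intro i hi
      rw [hT, Finset.mem_filter]
      refine ⟨Finset.mem_univ _, ?_⟩
      by_contra hcon
      have h1 := hact2 i.1 e.1 hcon i.2 (by omega)
      have h2 := hg2 i.1 i.2 (by omega) ⟨e, he⟩ (by dsimp only; linarith)
      have h3 := (abs_lt.1 (hgs i hi)).1
      linarith
    have hL : L.card + (a + 1) ≤ (2 * κ + 1) * T.card := by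
      have h1 : L.card = ∑ γ ∈ T, (L.filter fun i => i.1 = γ).card :=
        Finset.card_eq_sum_card_fiberwise hLT
      have h2 : ∀ γ ∈ T, (L.filter fun i => i.1 = γ).card + (if γ ∈ S then 1 else 0) ≤
          2 * κ + 1 := by
        intro γ _
        have h3 : (L.filter fun i => i.1 = γ).card =
            ((L.filter fun i => i.1 = γ).image Prod.snd).card := by
          rw [Finset.card_image_of_injOn]
          intro i hi j hj hij
          have hi' := (Finset.mem_filter.1 hi).2
          have hj' := (Finset.mem_filter.1 hj).2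
          exact Prod.ext (hi'.trans hj'.symm) hij
        rw [h3]
        split_ifs with hγ
        · obtain ⟨j, hj, hjg⟩ := hg3 γ ⟨e, he⟩ (hSe γ hγ).2
          have h4 : (L.filter fun i => i.1 = γ).image Prod.snd ⊆
              Finset.univ.erase (⟨j, by omega⟩ : Fin (2 * κ + 1)) := by
            intro l hl
            obtain ⟨i, hi, rfl⟩ := Finset.mem_image.1 hl
            rw [Finset.mem_erase]
            refine ⟨fun hij => ?_, Finset.mem_univ _⟩
            have h5 := hgs i (Finset.mem_filter.1 hi).1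
            rw [(Finset.mem_filter.1 hi).2, hij] at h5
            exact absurd hjg (not_le.2 h5)
          have h6 := Finset.card_le_card h4
          rw [Finset.card_erase_of_mem (Finset.mem_univ _), Finset.card_univ,
            Fintype.card_fin] at h6
          omega
        · refine (Finset.card_le_univ _).trans ?_
          rw [Fintype.card_fin]
      have h7 := Finset.sum_le_sum h2
      rw [Finset.sum_add_distrib, ← h1, Finset.sum_const, smul_eq_mul, mul_comm T.card,
        ← Finset.sum_filter, Finset.sum_const, smul_eq_mul, mul_one] at h7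
      have h8 : T.filter (fun γ => γ ∈ S) = S := by
        ext γ
        simp only [Finset.mem_filter]
        exact ⟨fun h => h.2, fun h => ⟨hST h, h⟩⟩
      rw [h8] at h7
      omega
    have hR : R.card ≤ (ss.filter fun c => 1 / 8 < χ c e.1 ∧ χ c e.1 < 7 / 8).length := by
      have h1 : R ⊆ Finset.univ.filter fun i : Fin ss.length =>
          1 / 8 < χ (ss.get i) e.1 ∧ χ (ss.get i) e.1 < 7 / 8 := by
        intro i hi
        have h := (Finset.mem_filter.1 hi).2
        rw [hyr i ⟨e, he⟩] at h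
        have h1 : 4 / 3 * (χ (ss.get i) e.1 - 1 / 8) < 1 := by
          by_contra hcon
          rw [min_eq_left (not_lt.1 hcon), max_eq_right zero_le_one] at h
          exact lt_irrefl _ h.2
        have h2 : 0 < 4 / 3 * (χ (ss.get i) e.1 - 1 / 8) := by
          by_contra hcon
          rw [max_eq_left ((min_le_right _ _).trans (not_lt.1 hcon))] at h
          exact lt_irrefl _ h.1
        rw [Finset.mem_filter]
        exact ⟨Finset.mem_univ _, by linarith, by linarith⟩
      refine (Finset.card_le_card h1).trans (le_of_eq ?_)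
      rw [← List.countP_eq_length_filter]
      conv_rhs => rw [← List.map_get_finRange ss]
      rw [List.countP_map, List.countP_eq_length_filter]
      rw [← List.toFinset_card_of_nodup ((List.nodup_finRange _).filter _)]
      congr 1
      ext i
      simp
    have h := hD e.1
    rw [← hT] at h
    rw [hcard]
    omega

end

/-- **HALF 2 of part A** -/
theorem staticThm_of_zThm (h : ZThm.{u}) : Final.StaticThm.{u} := by
  intro X _ _ C κ a m hκ χ hχ crd ss F hF hne hopf actv hact1 hact2 𝒲 h𝒲 W δ₁ hδ₁ hW D hD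
  refine h X (2 * κ * a) (Fin m × Fin κ) (mdsMat F) (blkMat F) ?_ ?_ 𝒲 h𝒲.2.1 D
    (smallOn_zset χ hχ crd ss F hF hne hopf actv hact1 hact2 𝒲 W δ₁ hδ₁ hW D hD)
  · refine continuous_matrix fun i j => ?_
    have hL : Continuous (mds (Fin m) (Fin κ × Fin 2) (2 * κ * a)) :=
      LinearMap.continuous_of_finiteDimensional _
    refine (continuous_apply i).comp (hL.comp ?_)
    exact continuous_pi fun γ => continuous_pi fun s =>
      (hF γ s.1 s.2).comp (continuous_id.prodMk continuous_const)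
  · intro i
    refine continuous_matrix fun e j => ?_
    exact (hF i.1 i.2 e).comp (continuous_id.prodMk continuous_const)

end Vale.Agent.P093.A
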