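import Vale.Agent.P093.A.MDS
import Vale.Agent.P093.A.ZSet

/-!
# The matrices of the linear family, and the count on the zero set

`F γ k e x` linear forms on `ℂ ^ (p + 1)`, `p = 2 κ a`. `matF F (γ, k) x` is the `2 × (p + 1)` matrix of
`(F γ k 0 x, F γ k 1 x)` and `matM F x` the `p × (p + 1)` matrix of `mds ∘ F x`.

`exists_count` : there is `c > 0` such that for every rank one projection `P` with `matM F x * P = 0`, at
least `a + 1` groups `γ` have an entry of `matF F (γ, k) x * P` of norm at least `c`.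
-/

open Set Matrix
open Vale.Agent.P251.G (IsProj Gr)

namespace Vale.Agent.P093.A

section

variable {X : Type*} {m κ n p : ℕ}

/-- the matrix of the block `(γ, k)` -/
noncomputable def matF (F : Fin m → Fin κ → Fin 2 → X → (Fin n → ℂ) →ₗ[ℂ] ℂ) (i : Fin m × Fin κ)
    (x : X) : Matrix (Fin 2) (Fin n) ℂ := fun e j => F i.1 i.2 e x (Pi.single j 1)

/-- the vector of all values -/
noncomputable def totF (F : Fin m → Fin κ → Fin 2 → X → (Fin n → ℂ) →ₗ[ℂ] ℂ) (x : X) :
    (Fin n → ℂ) →ₗ[ℂ] (Fin m → Fin κ × Fin 2 → ℂ) :=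
  LinearMap.pi fun γ => LinearMap.pi fun k => F γ k.1 k.2 x

/-- the matrix of the Vandermonde combination -/
noncomputable def matM (F : Fin m → Fin κ → Fin 2 → X → (Fin n → ℂ) →ₗ[ℂ] ℂ) (p : ℕ) (x : X) :
    Matrix (Fin p) (Fin n) ℂ :=
  LinearMap.toMatrix' ((mds (Fin m) (Fin κ × Fin 2) p) ∘ₗ totF F x)

variable (F : Fin m → Fin κ → Fin 2 → X → (Fin n → ℂ) →ₗ[ℂ] ℂ)

theorem matF_mulVec (i : Fin m × Fin κ) (x : X) (q : Fin n → ℂ) :
    matF F i x *ᵥ q = fun e => F i.1 i.2 e x q := by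
  funext e
  have h1 : q = ∑ j, q j • (Pi.single j 1 : Fin n → ℂ) := by
    funext j
    simp [Finset.sum_apply, Pi.single_apply]
  conv_rhs => rw [h1]
  rw [map_sum]
  simp only [map_smul, smul_eq_mul, mulVec, dotProduct, matF]
  exact Finset.sum_congr rfl fun j _ => mul_comm _ _

theorem matF_mul_apply (i : Fin m × Fin κ) (x : X) (P : Matrix (Fin n) (Fin n) ℂ) (e : Fin 2)
    (b : Fin n) : (matF F i x * P) e b = F i.1 i.2 e x (fun j => P j b) := by
  have h1 := congrFun (matF_mulVec F i x (fun j => P j b)) e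
  rw [← h1]
  rfl

theorem totF_apply (x : X) (q : Fin n → ℂ) (γ : Fin m) (k : Fin κ × Fin 2) :
    totF F x q γ k = F γ k.1 k.2 x q := rfl

theorem matM_mulVec (p : ℕ) (x : X) (q : Fin n → ℂ) :
    matM F p x *ᵥ q = mds (Fin m) (Fin κ × Fin 2) p (totF F x q) := by
  unfold matM
  rw [LinearMap.toMatrix'_mulVec]
  rfl

variable [TopologicalSpace X]

theorem continuous_matF (hF : ∀ γ k e, Continuous fun z : X × (Fin n → ℂ) => F γ k e z.1 z.2)
    (i : Fin m × Fin κ) : Continuous (matF F i) := by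
  refine continuous_matrix fun e j => ?_
  exact (hF i.1 i.2 e).comp (continuous_id.prodMk continuous_const)

theorem continuous_totF (hF : ∀ γ k e, Continuous fun z : X × (Fin n → ℂ) => F γ k e z.1 z.2) :
    Continuous fun z : X × (Fin n → ℂ) => totF F z.1 z.2 :=
  continuous_pi fun γ => continuous_pi fun k => hF γ k.1 k.2

theorem continuous_matM (hF : ∀ γ k e, Continuous fun z : X × (Fin n → ℂ) => F γ k e z.1 z.2)
    (p : ℕ) : Continuous (matM F p) := by
  refine continuous_matrix fun j b => ?_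
  have h1 : (fun x => matM F p x j b) =
      fun x => mds (Fin m) (Fin κ × Fin 2) p (totF F x (Pi.single b 1)) j := by
    funext x
    rw [← matM_mulVec]
    simp
  rw [h1]
  exact (continuous_apply j).comp ((LinearMap.continuous_of_finiteDimensional _).comp
    ((continuous_totF F hF).comp (continuous_id.prodMk continuous_const)))

end

section

variable {X : Type*} [TopologicalSpace X] [CompactSpace X] {m κ n : ℕ}

/-- a rank one projection has a column of norm at least `1 / n` -/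
theorem exists_col {P : Matrix (Fin n) (Fin n) ℂ} (hP : IsProj 1 P) :
    ∃ b, 1 ≤ n * ‖fun j => P j b‖ := by
  by_contra hcon
  push Not at hcon
  have h1 : ‖P.trace‖ = 1 := by rw [hP.trace]; simp
  have h2 : ‖P.trace‖ ≤ ∑ b, ‖P b b‖ := norm_sum_le _ _
  rcases Nat.eq_zero_or_pos n with h0 | h0
  · subst h0
    rw [h1] at h2
    simp at h2
    linarith
  · have h3 : ∀ b, (n : ℝ) * ‖P b b‖ < 1 := fun b =>
      lt_of_le_of_lt (mul_le_mul_of_nonneg_left (norm_le_pi_norm (fun j => P j b) b) n.cast_nonneg)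
        (hcon b)
    have h4 : ∑ b, (n : ℝ) * ‖P b b‖ < ∑ b : Fin n, 1 := by
      refine Finset.sum_lt_sum_of_nonempty ⟨⟨0, h0⟩, Finset.mem_univ _⟩ fun b _ => h3 b
    rw [← Finset.mul_sum, Finset.sum_const, Finset.card_univ, Fintype.card_fin, nsmul_eq_mul,
      mul_one] at h4
    have h5 : (0 : ℝ) < n := by exact_mod_cast h0
    nlinarith

/-- **The count on the zero set.** -/
theorem exists_count (F : Fin m → Fin κ → Fin 2 → X → (Fin n → ℂ) →ₗ[ℂ] ℂ)
    (hF : ∀ γ k e, Continuous fun z : X × (Fin n → ℂ) => F γ k e z.1 z.2)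
    (hinj : ∀ x q, q ≠ 0 → ∃ γ k e, F γ k e x q ≠ 0) {a p : ℕ} (hp : 2 * κ * a ≤ p) :
    ∃ c : ℝ, 0 < c ∧ ∀ x (P : Matrix (Fin n) (Fin n) ℂ), IsProj 1 P → matM F p x * P = 0 →
      ∃ S : Finset (Fin m), a + 1 ≤ S.card ∧
        ∀ γ ∈ S, ∃ (k : Fin κ) (e : Fin 2) (b : Fin n), c ≤ ‖(matF F (γ, k) x * P) e b‖ := by
  have hp' : a * Fintype.card (Fin κ × Fin 2) ≤ p := by
    refine le_trans (le_of_eq ?_) hp
    rw [Fintype.card_prod, Fintype.card_fin, Fintype.card_fin]
    ring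
  have hinj' : ∀ x q, q ≠ 0 → totF F x q ≠ 0 := by
    intro x q hq h0
    obtain ⟨γ, k, e, h⟩ := hinj x q hq
    exact h (congrFun (congrFun h0 γ) (k, e))
  obtain ⟨c, hc, hcount⟩ := exists_margin hp' (totF F) (continuous_totF F hF) hinj'
  refine ⟨c / (n + 1), by positivity, fun x P hP hMP => ?_⟩
  obtain ⟨b, hb⟩ := exists_col hP
  obtain ⟨q, hq⟩ : ∃ q : Fin n → ℂ, q = fun j => P j b := ⟨_, rfl⟩
  rw [← hq] at hb
  have hq0 : q ≠ 0 := by
    intro h
    rw [h, norm_zero, mul_zero] at hb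
    linarith
  have hMq : matM F p x *ᵥ q = 0 := by
    have h1 : matM F p x *ᵥ q = fun j => (matM F p x * P) j b := by rw [hq]; rfl
    rw [h1, hMP]
    rfl
  rw [matM_mulVec] at hMq
  obtain ⟨S, hS, hS'⟩ := hcount x q hq0 (by rw [hMq, norm_zero]; positivity)
  refine ⟨S, hS, fun γ hγ => ?_⟩
  have h1 := hS' γ hγ
  by_contra hcon
  push Not at hcon
  have h2 : ‖totF F x q γ‖ < c * ‖q‖ := by
    have hn : 0 < ‖q‖ := norm_pos_iff.2 hq0
    rw [pi_norm_lt_iff (by positivity)]
    rintro ⟨k, e⟩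
    have h3 := hcon k e b
    rw [matF_mul_apply, ← hq] at h3
    rw [totF_apply]
    refine h3.trans_le ?_
    rw [div_le_iff₀ (by positivity)]
    have h4 : (1 : ℝ) ≤ ‖q‖ * (n + 1) := by nlinarith
    nlinarith
  exact absurd h1 (not_le.2 h2)

end

end Vale.Agent.P093.A
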