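import Vale.Agent.P093.U.Stair

/-!
# P093, part A: `SmallOn` extends from a compact set to a neighbourhood

* `SmallOn.nbhd` : carried weights of order `≤ d` on a closed subset of a normal space extend to an
  open neighbourhood, with the same order.
* `SmallOn.nbhd_of_zero` : if the closed subset is the zero set of a continuous function on a compact
  space then a sublevel set `{s < δ}` will do.
-/

open Set Topology

namespace Vale.Agent.P093.U

variable {X : Type*} [TopologicalSpace X] {E : Type*} [TopologicalSpace E]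

open scoped Classical in
theorem SmallOn.nbhd [NormalSpace E] {W : Set (Set X)} (hW : ∀ V ∈ W, IsOpen V) {p : E → X}
    (hp : Continuous p) {K : Set E} (hK : IsClosed K) {d : ℕ} (h : SmallOn W p K (fun _ => d)) :
    ∃ N : Set E, IsOpen N ∧ K ⊆ N ∧ SmallOn W p N (fun _ => d) := by
  obtain ⟨ι, _, w, h1, h2, h3, h4, h5⟩ := h
  -- the extensions
  have hext : ∀ i, ∃ g : C(E, ℝ), ∀ e ∈ K, g e = w i e := by
    intro i
    let f : C(K, ℝ) := ⟨fun e => w i e, continuousOn_iff_continuous_domRestrict.1 (h1 i)⟩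
    obtain ⟨g, hg⟩ := ContinuousMap.exists_restrict_eq (Y := ℝ) hK f
    refine ⟨g, fun e he => ?_⟩
    have := DFunLike.congr_fun hg ⟨e, he⟩
    exact this
  choose g hg using hext
  choose V hVW hV using h4
  obtain ⟨ε, hε, hε1⟩ : ∃ ε : ℝ, 0 < ε ∧ (Fintype.card ι : ℝ) * ε < 1 := by
    refine ⟨1 / (Fintype.card ι + 1), by positivity, ?_⟩
    rw [mul_one_div, div_lt_one (by positivity)]
    linarith
  let B : Finset ι → Set E := fun S => ⋂ i ∈ S, {e | ε ≤ g i e}
  let C : ι → Set E := fun i => {e | ε ≤ g i e} ∩ (p ⁻¹' V i)ᶜ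
  have hB : ∀ S, IsClosed (B S) := fun S =>
    isClosed_biInter fun i _ => isClosed_le continuous_const (g i).continuous
  have hC : ∀ i, IsClosed (C i) := fun i =>
    (isClosed_le continuous_const (g i).continuous).inter
      ((hW _ (hVW i)).preimage hp).isClosed_compl
  let N : Set E := {e | ∃ i, ε < g i e} ∩ (⋂ S ∈ {S : Finset ι | d + 2 ≤ S.card}, (B S)ᶜ) ∩
    ⋂ i, (C i)ᶜ
  have hN1 : IsOpen {e | ∃ i, ε < g i e} := by
    rw [Set.ofPred_exists]
    exact isOpen_iUnion fun i => isOpen_lt continuous_const (g i).continuous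
  have hNo : IsOpen N := by
    refine (hN1.inter ?_).inter ?_
    · exact (Set.toFinite _).isOpen_biInter fun S _ => (hB S).isOpen_compl
    · exact isOpen_iInter_of_finite fun i => (hC i).isOpen_compl
  have hKN : K ⊆ N := by
    intro e he
    refine ⟨⟨?_, ?_⟩, ?_⟩
    · by_contra hne0
      have hne : ∀ i, g i e ≤ ε := fun i => not_lt.1 fun h => hne0 ⟨i, h⟩
      have h6 : ∑ i, w i e ≤ ∑ _i : ι, ε := Finset.sum_le_sum fun i _ => by
        rw [← hg i e he]; exact hne i
      rw [h3 e he, Finset.sum_const, Finset.card_univ, nsmul_eq_mul] at h6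
      linarith
    · simp only [mem_iInter, mem_compl_iff, mem_ofPred_eq]
      intro S hS hBS
      have h7 : (S : Set ι) ⊆ {i | w i e ≠ 0} := by
        intro i hi
        have h8 := mem_iInter₂.1 hBS i hi
        rw [mem_ofPred_eq, hg i e he] at h8
        exact (lt_of_lt_of_le hε h8).ne'
      have h9 := Set.ncard_le_ncard h7 (Set.toFinite _)
      rw [Set.ncard_coe_finset] at h9
      have : {i | w i e ≠ 0}.ncard ≤ d + 1 := h5 e he
      omega
    · simp only [mem_iInter, mem_compl_iff]
      intro i hi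
      have h8 : ε ≤ g i e := hi.1
      rw [hg i e he] at h8
      exact hi.2 (hV i e he (lt_of_lt_of_le hε h8).ne')
  let v : ι → E → ℝ := fun i e => max 0 (g i e - ε)
  have hvc : ∀ i, Continuous (v i) := fun i =>
    continuous_const.max ((g i).continuous.sub continuous_const)
  have hv0 : ∀ i e, 0 ≤ v i e := fun i e => le_max_left _ _
  have hvpos : ∀ i e, v i e ≠ 0 → ε < g i e := by
    intro i e h
    by_contra hne
    exact h (max_eq_left (by linarith [not_lt.1 hne]))
  have hsum : ∀ e ∈ N, 0 < ∑ i, v i e := by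
    intro e he
    obtain ⟨i, hi⟩ := he.1.1
    refine lt_of_lt_of_le ?_ (Finset.single_le_sum (fun j _ => hv0 j e) (Finset.mem_univ i))
    exact lt_of_lt_of_le (by linarith : (0 : ℝ) < g i e - ε) (le_max_right _ _)
  refine ⟨N, hNo, hKN, ι, inferInstance, fun i e => v i e / ∑ j, v j e, fun i => ?_,
    fun i e he => div_nonneg (hv0 i e) (hsum e he).le, fun e he => ?_, fun i => ?_, fun e he => ?_⟩
  · exact (hvc i).continuousOn.div (continuous_finsetSum _ fun j _ => hvc j).continuousOn
      fun e he => (hsum e he).ne'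
  · rw [← Finset.sum_div, div_self (hsum e he).ne']
  · refine ⟨V i, hVW i, fun e he hne => ?_⟩
    have h6 : v i e ≠ 0 := fun h0 => hne (by
      change v i e / _ = 0
      rw [h0, zero_div])
    by_contra hnot
    have h7 := mem_iInter.1 he.2 i
    exact h7 ⟨(hvpos i e h6).le, hnot⟩
  · by_contra hgt
    have hsub : {i | v i e / ∑ j, v j e ≠ 0} = {i | v i e ≠ 0} := by
      ext i
      simp only [mem_ofPred_eq, ne_eq, div_eq_zero_iff, not_or]
      exact ⟨fun h => h.1, fun h => ⟨h, (hsum e he).ne'⟩⟩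
    rw [hsub] at hgt
    have hgt' : ¬ {i | v i e ≠ 0}.ncard ≤ d + 1 := hgt
    have h8 := he.1.2
    simp only [mem_iInter, mem_compl_iff, mem_ofPred_eq] at h8
    refine h8 (Set.toFinite {i | v i e ≠ 0}).toFinset ?_ ?_
    · rw [← Set.ncard_eq_toFinset_card]
      omega
    · refine mem_iInter₂.2 fun i hi => ?_
      rw [Set.Finite.mem_toFinset] at hi
      exact (hvpos i e hi).le

theorem SmallOn.nbhd_of_zero [CompactSpace E] [T2Space E] {W : Set (Set X)}
    (hW : ∀ V ∈ W, IsOpen V) {p : E → X} (hp : Continuous p) {s : E → ℝ} (hs : Continuous s)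
    (hs0 : ∀ e, 0 ≤ s e) {d : ℕ} (h : SmallOn W p {e | s e = 0} (fun _ => d)) :
    ∃ δ : ℝ, 0 < δ ∧ SmallOn W p {e | s e < δ} (fun _ => d) := by
  obtain ⟨N, hN, hKN, hsm⟩ := h.nbhd hW hp (isClosed_eq hs continuous_const)
  obtain ⟨δ, hδ, hsub⟩ : ∃ δ : ℝ, 0 < δ ∧ {e | s e < δ} ⊆ N := by
    have hc : IsCompact Nᶜ := hN.isClosed_compl.isCompact
    rcases (Nᶜ).eq_empty_or_nonempty with h0 | h0
    · exact ⟨1, one_pos, fun e _ => by
        by_contra he
        have : e ∈ Nᶜ := he
        rw [h0] at this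
        exact this⟩
    · obtain ⟨e₀, he₀, hmin⟩ := hc.exists_isMinOn h0 hs.continuousOn
      refine ⟨s e₀, lt_of_le_of_ne (hs0 _) fun h1 => he₀ (hKN h1.symm), fun e he => ?_⟩
      by_contra hne
      have h2 : s e₀ ≤ s e := hmin (show e ∈ Nᶜ from hne)
      exact absurd h2 (not_le.2 he)
  exact ⟨δ, hδ, hsm.mono (fun V hV => ⟨V, hV, subset_rfl⟩) hsub fun _ _ => le_rfl⟩

end Vale.Agent.P093.U
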