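import Vale.Agent.P093.A.Deriv
import Vale.Agent.P251.G.Gr
import Mathlib.LinearAlgebra.Complex.FiniteDimensional

/-!
# P093, block A-ZERO: the derivative homotopy for maps into `Th n J`
-/

open Matrix Filter Topology OnePoint
open Vale.Agent.P251.G

noncomputable section

namespace Vale.Agent.P093.A.Zero

variable {n : ℕ} {J : Type} [Fintype J]

/-- `Th n J` as a closed subset of `Gr n J × (J → ℂ)` -/
def coneTh (n : ℕ) (J : Type) [Fintype J] : Set (Gr n J × (J → ℂ)) := {q | q.1.P *ᵥ q.2 = q.2}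

theorem coneSet_coneTh : A.ConeSet (coneTh n J) where
  closed := isClosed_eq (by
    have := Gr.continuous_P (n := n) (I := J)
    fun_prop) (by fun_prop)
  smul_mem k ξ h t _ := by
    change k.P *ᵥ (t • ξ) = t • ξ
    rw [mulVec_smul]
    congr 1

/-- the homeomorphism -/
def thHomeo (n : ℕ) (J : Type) [Fintype J] : Th n J ≃ₜ coneTh n J where
  toFun x := ⟨(x.gr, x.v), x.P_mulVec⟩
  invFun q := Th.mk q.1.1.P q.1.2 q.1.1.isProj q.2
  left_inv _ := rfl
  right_inv _ := rfl
  continuous_toFun := by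
    refine Continuous.subtype_mk ?_ _
    exact Th.continuous_gr.prodMk Th.continuous_v
  continuous_invFun := by
    refine Continuous.subtype_mk ?_ _
    have := Gr.continuous_P (n := n) (I := J)
    fun_prop

variable {V : Type} [NormedAddCommGroup V] [NormedSpace ℝ V] [FiniteDimensional ℝ V]

/-- **Derivative homotopy into `Th n J`.** -/
theorem exists_homotopy_th {f : OnePoint V → OnePoint (Th n J)} (hf : Continuous f)
    (hinf : f ∞ = ∞) {w₀ : V} {P : V → Matrix J J ℂ} {ξ : V → J → ℂ} {D : V →L[ℝ] (J → ℂ)}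
    (hloc : ∀ᶠ w in 𝓝 (0 : V), ∃ (h : IsProj n (P w)) (h' : P w *ᵥ ξ w = ξ w),
      f ((w₀ + w : V) : OnePoint V) = (Th.mk (P w) (ξ w) h h' : OnePoint (Th n J)))
    (hD : HasFDerivAt ξ D 0) (h0 : ξ 0 = 0) (hinj : Function.Injective D)
    (huniq : ∀ (v : V) (s : Th n J), f (v : OnePoint V) = (s : OnePoint (Th n J)) → s.v = 0 →
      v = w₀) :
    ∃ (hP : IsProj n (P 0)) (hPD : ∀ v, P 0 *ᵥ D v = D v)
      (H : unitInterval → OnePoint V → OnePoint (Th n J)),
      Continuous (fun q : unitInterval × OnePoint V => H q.1 q.2) ∧ (∀ τ, H τ ∞ = ∞) ∧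
      (∀ v : V, H 0 (v : OnePoint V) = (Th.mk (P 0) (D v) hP (hPD v) : OnePoint (Th n J))) ∧
      ∀ x, H 1 x = f x := by
  classical
  obtain ⟨hP0, _, _⟩ := hloc.self_of_nhds
  let ψ : OnePoint (Th n J) ≃ₜ OnePoint (coneTh n J) := (thHomeo n J).onePointCongr
  have hψ : ∀ x : Th n J, ψ (x : OnePoint (Th n J)) = ((thHomeo n J x : coneTh n J) : OnePoint _) :=
    fun _ => rfl
  have hψi : ψ ∞ = ∞ := rfl
  let k : V → Gr n J := fun w =>
    if h : IsProj n (P w) then (⟨P w, h⟩ : Gr n J) else (⟨P 0, hP0⟩ : Gr n J)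
  have hk : ∀ w, IsProj n (P w) → (k w).P = P w := by
    intro w h
    have h1 : k w = (⟨P w, h⟩ : Gr n J) := dif_pos h
    rw [h1]
    rfl
  have hz : A.NDZero (fun x => ψ (f x)) w₀ k ξ D := by
    refine ⟨ψ.continuous.comp hf, ?_, ?_, hD, h0, hinj, ?_⟩
    · change ψ (f ∞) = ∞
      rw [hinf, hψi]
    · filter_upwards [hloc] with w hw
      obtain ⟨h1, h2, h3⟩ := hw
      refine ⟨?_, ?_⟩
      · change (k w).P *ᵥ ξ w = ξ w
        rw [hk w h1, h2]
      · change ψ (f _) = _
        rw [h3, hψ]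
        congr 1
        apply Subtype.ext
        refine Prod.ext (Gr.ext ?_) rfl
        exact (hk w h1).symm
    · intro v s hs hs0
      have h1 : f (v : OnePoint V) = (((thHomeo n J).symm s : Th n J) : OnePoint (Th n J)) := by
        apply ψ.injective
        rw [hψ, Homeomorph.apply_symm_apply]
        exact hs
      exact huniq v _ h1 hs0
  have hmem := hz.mem coneSet_coneTh
  have hPD : ∀ v, P 0 *ᵥ D v = D v := by
    intro v
    have := hmem v
    change (k 0).P *ᵥ D v = D v at this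
    rwa [hk 0 hP0] at this
  obtain ⟨H, h1, h2, h3, h4⟩ := hz.exists_homotopy coneSet_coneTh hmem
  refine ⟨hP0, hPD, fun τ x => ψ.symm (H τ x), ψ.symm.continuous.comp h1, fun τ => ?_, fun v => ?_,
    fun x => ?_⟩
  · change ψ.symm (H τ ∞) = ∞
    rw [h2]
    rfl
  · change ψ.symm (H 0 v) = _
    rw [h3, Homeomorph.symm_apply_eq, hψ]
    change ((_ : coneTh n J) : OnePoint (coneTh n J)) = _
    congr 1
    apply Subtype.ext
    refine Prod.ext (Gr.ext ?_) rfl
    exact hk 0 hP0
  · change ψ.symm (H 1 x) = _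
    rw [h4, Homeomorph.symm_apply_apply]

end Vale.Agent.P093.A.Zero
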