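import Vale.Agent.P093.A.ZeroUniq
import Vale.Agent.P093.A.ThDeriv
import Vale.Agent.P093.A5.CSmall
import Vale.Agent.P093.A5.Fib
import Vale.Agent.P093.A5.TubeInst
import Vale.Agent.P093.A5.Norm

/-!
# P093, block A-ZERO (T6)

The reference map `aMap N N2 n datRef` is pointed homotopic to the inclusion of a coordinate fibre of
`Th n (JJ ..)`.
-/

open Matrix Filter Topology OnePoint
open Vale.Agent.P251.G (IsProj Th nsq)

noncomputable section

namespace Vale.Agent.P093.A.Zero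

open A5

set_option linter.unusedSectionVars false

section cut

variable {V : Type*} [NormedAddCommGroup V] [NormedSpace ℝ V] {J : Type} [Fintype J]

/-- the cut-off does not change the derivative at a zero -/
theorem hasFDerivAt_cut {g : V → J → ℂ} {D : V →L[ℝ] (J → ℂ)} {v₀ : V} (h : HasFDerivAt g D v₀)
    (h0 : g v₀ = 0) :
    HasFDerivAt (fun w => (1 - nsq (g (v₀ + w)))⁻¹ • g (v₀ + w)) D 0 := by
  have h1 : HasFDerivAt (fun w => g (v₀ + w)) D 0 := by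
    have h2 : HasFDerivAt g D (v₀ + 0) := by rwa [add_zero]
    exact (hasFDerivAt_comp_add_left v₀).2 h2
  have hc : Tendsto (fun w => (1 - nsq (g (v₀ + w)))⁻¹) (𝓝 0) (𝓝 1) := by
    have h3 : ContinuousAt (fun w => (1 - nsq (g (v₀ + w)))⁻¹) 0 := by
      refine ContinuousAt.inv₀ ?_ ?_
      · exact continuousAt_const.sub
          (Vale.Agent.P251.G.continuous_nsq.continuousAt.comp h1.continuousAt)
      · rw [add_zero, h0, Vale.Agent.P251.G.nsq_zero]
        norm_num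
    have h4 : (1 - nsq (g (v₀ + 0)))⁻¹ = 1 := by
      rw [add_zero, h0, Vale.Agent.P251.G.nsq_zero]
      norm_num
    have h5 := h3.tendsto
    rwa [h4] at h5
  rw [hasFDerivAt_iff_isLittleO_nhds_zero] at h1 ⊢
  have e : (fun w : V => (1 - nsq (g (v₀ + (0 + w))))⁻¹ • g (v₀ + (0 + w)) -
      (1 - nsq (g (v₀ + 0)))⁻¹ • g (v₀ + 0) - D w) =
      fun w => (1 - nsq (g (v₀ + w)))⁻¹ • (g (v₀ + (0 + w)) - g (v₀ + 0) - D w) +
        ((1 - nsq (g (v₀ + w)))⁻¹ - 1) • D w := by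
    funext w
    rw [zero_add, add_zero, h0, smul_zero, sub_zero, sub_zero, smul_sub, sub_smul, one_smul]
    abel
  rw [e]
  refine Asymptotics.IsLittleO.add ?_ ?_
  · have h6 : (fun w => (1 - nsq (g (v₀ + w)))⁻¹) =O[𝓝 0] fun _ : V => (1 : ℝ) :=
      hc.isBigO_one ℝ
    have h7 := h6.smul_isLittleO h1
    simpa using h7
  · have h6 : (fun w => (1 - nsq (g (v₀ + w)))⁻¹ - 1) =o[𝓝 0] fun _ : V => (1 : ℝ) := by
      rw [Asymptotics.isLittleO_one_iff]
      simpa using hc.sub_const 1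
    have h7 : (fun w => D w) =O[𝓝 0] fun w : V => w := D.isBigO_id _
    have h8 := h6.smul_isBigO h7
    simpa using h8

end cut

section main

variable {p : ℕ} {I : Type} [Fintype I] [DecidableEq I] {N : Tube (Fin (p + 1))}
  {N2 : Tube (Fin 2)} {n : ℕ}

theorem vRef_mem : vRef p I ∈ tubeSet (p + 1) I N N2 := by
  have h : ∀ (k : ℕ) (N : Tube (Fin (k + 1))), N.dsq (hm (Er k)) < 1 / 16 := by
    intro k N
    unfold Tube.dsq
    rw [hm_of_herm (isProj_Er k).herm, N.near_proj _ (isProj_Er k), sub_self]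
    have : hsq (0 : Matrix (Fin (k + 1)) (Fin (k + 1)) ℂ) = 0 := by simp [hsq]
    rw [this]
    norm_num
  exact ⟨h p N, fun _ => h 1 N2⟩

/-- the map `a` for the reference data, through a linear isomorphism -/
def fRef (N : Tube (Fin (p + 1))) (N2 : Tube (Fin 2)) (n : ℕ) {t : ℕ}
    (φ : (Fin t → ℝ) ≃L[ℝ] VV (p + 1) I) (x : OnePoint (Fin t → ℝ)) :
    OnePoint (Th n (JJ (p + 1) p I)) :=
  aMap N N2 n (datRef (p + 1) p I) (φ.toHomeomorph.onePointCongr x)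

section fRef

variable {t : ℕ} (φ : (Fin t → ℝ) ≃L[ℝ] VV (p + 1) I)

theorem onePointCongr_coe (v : Fin t → ℝ) :
    φ.toHomeomorph.onePointCongr (v : OnePoint (Fin t → ℝ)) = (φ v : OnePoint (VV (p + 1) I)) := rfl

theorem fRef_infty : fRef N N2 n φ ∞ = ∞ := rfl

theorem fRef_coe (v : Fin t → ℝ) : fRef N N2 n φ (v : OnePoint (Fin t → ℝ)) =
    aMap N N2 n (datRef (p + 1) p I) (φ v : OnePoint (VV (p + 1) I)) := rfl

theorem continuous_fRef (hOK : MapOK n (p + 1) p I N N2) : Continuous (fRef N N2 n φ) :=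
  hOK.continuous_aMap.comp (f := fun x => (datRef (p + 1) p I, φ.toHomeomorph.onePointCongr x))
    (by fun_prop)

theorem fRef_loc (hOK : MapOK n (p + 1) p I N N2) {w₀ : Fin t → ℝ} (hw₀ : φ w₀ = vRef p I)
    (hc : ContinuousAt (fun v => xi N N2 (datRef (p + 1) p I) (φ v)) w₀) :
    ∀ᶠ w in 𝓝 (0 : Fin t → ℝ),
      ∃ (h : IsProj n (piMat p (PP N (φ (w₀ + w))) (QQ N2 (φ (w₀ + w)))))
        (h' : piMat p (PP N (φ (w₀ + w))) (QQ N2 (φ (w₀ + w))) *ᵥ
          ((1 - nsq (xi N N2 (datRef (p + 1) p I) (φ (w₀ + w))))⁻¹ •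
            xi N N2 (datRef (p + 1) p I) (φ (w₀ + w))) =
          ((1 - nsq (xi N N2 (datRef (p + 1) p I) (φ (w₀ + w))))⁻¹ •
            xi N N2 (datRef (p + 1) p I) (φ (w₀ + w)))),
        fRef N N2 n φ ((w₀ + w : Fin t → ℝ) : OnePoint (Fin t → ℝ)) =
          (Th.mk (piMat p (PP N (φ (w₀ + w))) (QQ N2 (φ (w₀ + w))))
            ((1 - nsq (xi N N2 (datRef (p + 1) p I) (φ (w₀ + w))))⁻¹ •
            xi N N2 (datRef (p + 1) p I) (φ (w₀ + w))) h h' : OnePoint (Th n (JJ (p + 1) p I))) := by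
  have hzero : xi N N2 (datRef (p + 1) p I) (φ w₀) = 0 := by
    rw [hw₀]
    exact xi_eq_zero N N2
  have hcontφ : ContinuousAt (fun w : Fin t → ℝ => w₀ + w) 0 := by fun_prop
  have hloc1 : ∀ᶠ w in 𝓝 (0 : Fin t → ℝ), φ (w₀ + w) ∈ tubeSet (p + 1) I N N2 := by
    have h1 : ContinuousAt (fun w : Fin t → ℝ => φ (w₀ + w)) 0 := by fun_prop
    refine h1.preimage_mem_nhds ((isOpen_tubeSet N N2).mem_nhds ?_)
    rw [add_zero, hw₀]
    exact vRef_mem
  have hloc2 : ∀ᶠ w in 𝓝 (0 : Fin t → ℝ),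
      nsq (xi N N2 (datRef (p + 1) p I) (φ (w₀ + w))) < 1 := by
    have h1 : ContinuousAt (fun v => xi N N2 (datRef (p + 1) p I) (φ v)) (w₀ + 0) := by
      rw [add_zero]
      exact hc
    have h2 : ContinuousAt (fun w => nsq (xi N N2 (datRef (p + 1) p I) (φ (w₀ + w)))) 0 :=
      Vale.Agent.P251.G.continuous_nsq.continuousAt.comp (h1.comp hcontφ)
    refine h2.eventually (gt_mem_nhds ?_)
    change nsq (xi N N2 (datRef (p + 1) p I) (φ (w₀ + 0))) < 1
    rw [add_zero, hzero, Vale.Agent.P251.G.nsq_zero]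
    norm_num
  filter_upwards [hloc1, hloc2] with w h1 h2
  refine ⟨hOK.proj' _, ?_, ?_⟩
  · rw [mulVec_smul, hOK.fix']
  · exact hOK.aMap_some _ _ h1 h2

theorem fRef_uniq (hOK : MapOK n (p + 1) p I N N2) {w₀ : Fin t → ℝ} (hw₀ : φ w₀ = vRef p I)
    (v : Fin t → ℝ) (s : Th n (JJ (p + 1) p I))
    (hs : fRef N N2 n φ (v : OnePoint (Fin t → ℝ)) = (s : OnePoint (Th n (JJ (p + 1) p I))))
    (hs0 : s.v = 0) : v = w₀ := by
  rw [fRef_coe] at hs
  have h1 : aMap N N2 n (datRef (p + 1) p I) (φ v : OnePoint (VV (p + 1) I)) ≠ ∞ := by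
    rw [hs]
    exact OnePoint.coe_ne_infty s
  obtain ⟨v', hv', h2, h3⟩ := aMap_ne_infty _ _ h1
  rw [OnePoint.coe_eq_coe] at hv'
  rw [← hv'] at h2 h3
  have h4 := hOK.aMap_some (datRef (p + 1) p I) (φ v) h2 h3
  rw [hs, OnePoint.coe_eq_coe] at h4
  rw [h4] at hs0
  have h6 : (1 - nsq (xi N N2 (datRef (p + 1) p I) (φ v)))⁻¹ •
      xi N N2 (datRef (p + 1) p I) (φ v) = 0 := hs0
  have h7 : (1 - nsq (xi N N2 (datRef (p + 1) p I) (φ v)))⁻¹ ≠ 0 := by
    refine inv_ne_zero ?_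
    linarith
  have h8 := (smul_eq_zero.1 h6).resolve_left h7
  have h9 := eq_vRef h8
  apply φ.injective
  rw [h9, hw₀]

theorem piMat_ref {w₀ : Fin t → ℝ} (hw₀ : φ w₀ = vRef p I) :
    piMat p (PP N (φ (w₀ + 0))) (QQ N2 (φ (w₀ + 0))) = piMat p (E00 p) (fun _ : I => E00 1) := by
  have h1 : PP N (vRef p I) = E00 p := by
    rw [E00_eq_single]
    unfold PP vRef
    rw [hm_of_herm (isProj_Er p).herm, N.near_proj _ (isProj_Er p)]
    rfl
  have h2 : QQ N2 (vRef p I) = fun _ => E00 1 := by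
    funext i
    rw [E00_eq_single]
    unfold QQ vRef
    rw [hm_of_herm (isProj_Er 1).herm, N2.near_proj _ (isProj_Er 1)]
    rfl
  rw [add_zero, hw₀, h1, h2]

/-- the derivative of the reference vector -/
theorem exists_D (hN : Expands N (Er p)) (hN2 : Expands N2 (Er 1)) {w₀ : Fin t → ℝ}
    (hw₀ : φ w₀ = vRef p I) :
    ∃ D : (Fin t → ℝ) →L[ℝ] (JJ (p + 1) p I → ℂ), Function.Injective D ∧
      HasFDerivAt (fun v => xi N N2 (datRef (p + 1) p I) (φ v)) D w₀ := by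
  obtain ⟨D, hD, hderiv⟩ := hasFDerivAt_xi (I := I) hN hN2 (φ : (Fin t → ℝ) →ₗ[ℝ] VV (p + 1) I)
    (v₀ := w₀) hw₀
  refine ⟨D, ?_, hderiv⟩
  rw [injective_iff_map_eq_zero]
  intro v hv
  rw [hD] at hv
  have h1 := xiD_injective hv
  exact (φ.map_eq_zero_iff).1 h1

/-- the homotopy to the fibre over the base point -/
theorem exists_H (hOK : MapOK n (p + 1) p I N N2) {w₀ : Fin t → ℝ} (hw₀ : φ w₀ = vRef p I)
    {D : (Fin t → ℝ) →L[ℝ] (JJ (p + 1) p I → ℂ)} (hinj : Function.Injective D)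
    (hderiv : HasFDerivAt (fun v => xi N N2 (datRef (p + 1) p I) (φ v)) D w₀) :
    ∃ (hP : IsProj n (piMat p (E00 p) (fun _ : I => E00 1)))
      (hPD : ∀ v, piMat p (E00 p) (fun _ : I => E00 1) *ᵥ D v = D v)
      (H : unitInterval → OnePoint (Fin t → ℝ) → OnePoint (Th n (JJ (p + 1) p I))),
      Continuous (fun q : unitInterval × OnePoint (Fin t → ℝ) => H q.1 q.2) ∧
      (∀ τ, H τ ∞ = ∞) ∧
      (∀ v : Fin t → ℝ, H 0 (OnePoint.some v) = OnePoint.some (Th.mk _ (D v) hP (hPD v))) ∧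
      ∀ x, H 1 x = fRef N N2 n φ x := by
  have hzero : xi N N2 (datRef (p + 1) p I) (φ w₀) = 0 := by
    rw [hw₀]
    exact xi_eq_zero N N2
  have hz2 : (fun w => (1 - nsq (xi N N2 (datRef (p + 1) p I) (φ (w₀ + w))))⁻¹ •
      xi N N2 (datRef (p + 1) p I) (φ (w₀ + w))) 0 = 0 := by
    change (1 - nsq (xi N N2 (datRef (p + 1) p I) (φ (w₀ + 0))))⁻¹ •
      xi N N2 (datRef (p + 1) p I) (φ (w₀ + 0)) = 0
    rw [add_zero, hzero, smul_zero]
  have hcut := hasFDerivAt_cut hderiv hzero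
  beta_reduce at hcut
  have hloc := fRef_loc φ hOK hw₀ hderiv.continuousAt
  have key := exists_homotopy_th (continuous_fRef φ hOK) (fRef_infty φ) hloc hcut hz2 hinj
    (fRef_uniq φ hOK hw₀)
  simp only [piMat_ref (N := N) (N2 := N2) φ hw₀] at key
  exact key

end fRef

/-- **T6.** -/
theorem zeroOK_of (hOK : MapOK ((p + 1) ^ 2 + 4 * Fintype.card I) (p + 1) p I N N2)
    (hN : Expands N (Er p)) (hN2 : Expands N2 (Er 1)) :
    ZeroOK p I N N2 ((p + 1) ^ 2 + 4 * Fintype.card I) := by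
  obtain ⟨t, ht⟩ : ∃ t, t = 2 * ((p + 1) ^ 2 + 4 * Fintype.card I) := ⟨_, rfl⟩
  have hfr : Module.finrank ℝ (Fin t → ℝ) = Module.finrank ℝ (VV (p + 1) I) := by
    rw [finrank_VV, Module.finrank_fin_fun, ht]
  obtain ⟨φ⟩ : Nonempty ((Fin t → ℝ) ≃L[ℝ] VV (p + 1) I) :=
    ⟨ContinuousLinearEquiv.ofFinrankEq hfr⟩
  have hw₀ : φ (φ.symm (vRef p I)) = vRef p I := φ.apply_symm_apply _
  obtain ⟨D, hinj, hderiv⟩ := exists_D φ hN hN2 hw₀
  obtain ⟨hP0, hPD, H, h1, h2, h3, h4⟩ := exists_H φ hOK hw₀ hinj hderiv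
  let D' : VV (p + 1) I →ₗ[ℝ] (JJ (p + 1) p I → ℂ) :=
    (D : (Fin t → ℝ) →ₗ[ℝ] (JJ (p + 1) p I → ℂ)).comp
      (φ.symm : VV (p + 1) I →ₗ[ℝ] (Fin t → ℝ))
  obtain ⟨f, hf, e, he⟩ := exists_thFib_base D' (hinj.comp φ.symm.injective)
    (fun v => hPD (φ.symm v))
  refine ⟨f, hf, e, fun τ x => H τ (φ.toHomeomorph.onePointCongr.symm x), ?_,
    fun τ => h2 τ, fun v => ?_, fun v => ?_⟩
  · exact h1.comp (f := fun q : unitInterval × OnePoint (VV (p + 1) I) =>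
      (q.1, φ.toHomeomorph.onePointCongr.symm q.2)) (by fun_prop)
  · exact (h3 (φ.symm v)).trans (congrArg OnePoint.some (he v).symm)
  · refine (h4 _).trans ?_
    unfold fRef
    rw [Homeomorph.apply_symm_apply]

end main

/-- the tube of helper829 expands at `Er` -/
theorem expands_tube {k : ℕ} : Expands (tube (Fin (k + 1))) (Er k) := by
  refine ⟨256, 1, one_pos, fun η hη _ => ?_⟩
  exact tube_near_expand (isProj_Er k) hη

/-- **T6 for the nearest rank one projection.** -/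
theorem zeroOK (p : ℕ) (I : Type) [Fintype I] [DecidableEq I] :
    ZeroOK p I (tube (Fin (p + 1))) (tube (Fin 2)) ((p + 1) ^ 2 + 4 * Fintype.card I) :=
  zeroOK_of (mapOK _ _) expands_tube expands_tube

end Vale.Agent.P093.A.Zero
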