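import Vale.Agent.P093.A.ZeroDer
import Vale.Agent.P093.A5.Defs

/-!
# P093, block A-ZERO: the derivative of the reference vector at its zero

`E = single 0 0 1`, `off E η = E η (1 - E) + (1 - E) η E`. If the nearest rank one projection has
the first order expansion `near (E + η) = E + off E η + o(η)`, the vector `xi N N2 (datRef ..)` is
differentiable at `vRef = (E, (E)_i)`, with injective derivative.
-/

open Matrix Filter Topology
open Vale.Agent.P251.G (IsProj Th nsq)

noncomputable section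

namespace Vale.Agent.P093.A.Zero

open A5

set_option linter.unusedSectionVars false

section off

variable {k : Type} [Fintype k] [DecidableEq k]

/-- off-diagonal part of `η` with respect to `E` -/
def off (E η : Matrix k k ℂ) : Matrix k k ℂ := E * η * (1 - E) + (1 - E) * η * E

/-- first order expansion of `near` at `E` -/
def Expands (N : Tube k) (E : Matrix k k ℂ) : Prop :=
  ∃ C r : ℝ, 0 < r ∧ ∀ η : Matrix k k ℂ, ηᴴ = η → hsq η < r →
    hsq (N.near (E + η) - E - off E η) ≤ C * hsq η ^ 2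

theorem hsq_nonneg {k l : Type} [Fintype k] [Fintype l] (A : Matrix k l ℂ) : 0 ≤ hsq A :=
  Finset.sum_nonneg fun _ _ => Finset.sum_nonneg fun _ _ => Complex.normSq_nonneg _

theorem norm_sq_le_hsq {k l : Type} [Fintype k] [Fintype l] (A : Matrix k l ℂ) (i : k) (j : l) :
    ‖A i j‖ ^ 2 ≤ hsq A := by
  have h1 : Complex.normSq (A i j) ≤ ∑ j, Complex.normSq (A i j) :=
    Finset.single_le_sum (f := fun j => Complex.normSq (A i j))
      (fun _ _ => Complex.normSq_nonneg _) (Finset.mem_univ j)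
  have h2 : ∑ j, Complex.normSq (A i j) ≤ hsq A :=
    Finset.single_le_sum (f := fun i => ∑ j, Complex.normSq (A i j))
      (fun _ _ => Finset.sum_nonneg fun _ _ => Complex.normSq_nonneg _) (Finset.mem_univ i)
  rw [← Complex.normSq_eq_norm_sq]
  exact h1.trans h2

theorem hm_add (A B : Matrix k k ℂ) : hm (A + B) = hm A + hm B := by
  unfold hm
  rw [conjTranspose_add, ← smul_add]
  congr 1
  abel

theorem hm_smul (c : ℝ) (A : Matrix k k ℂ) : hm (c • A) = c • hm A := by
  unfold hm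
  rw [conjTranspose_smul]
  ext i j
  simp only [Matrix.smul_apply, Matrix.add_apply, star_trivial, smul_eq_mul, Complex.real_smul]
  ring

theorem hm_herm (A : Matrix k k ℂ) : (hm A)ᴴ = hm A := by
  unfold hm
  rw [conjTranspose_smul, conjTranspose_add, conjTranspose_conjTranspose, add_comm Aᴴ A]
  congr 1
  simp

theorem hm_of_herm {A : Matrix k k ℂ} (h : Aᴴ = A) : hm A = A := by
  unfold hm
  rw [h]
  ext i j
  simp only [Matrix.smul_apply, Matrix.add_apply, smul_eq_mul]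
  ring

/-- the hermitian part as a real linear map -/
def hmL (k : Type) [Fintype k] [DecidableEq k] : Matrix k k ℂ →ₗ[ℝ] Matrix k k ℂ where
  toFun := hm
  map_add' := hm_add
  map_smul' := hm_smul

theorem off_add (E η ζ : Matrix k k ℂ) : off E (η + ζ) = off E η + off E ζ := by
  unfold off
  rw [Matrix.mul_add, Matrix.mul_add, Matrix.add_mul, Matrix.add_mul]
  abel

theorem off_smul (E : Matrix k k ℂ) (c : ℝ) (η : Matrix k k ℂ) : off E (c • η) = c • off E η := by
  unfold off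
  rw [Matrix.mul_smul, Matrix.mul_smul, Matrix.smul_mul, Matrix.smul_mul, ← smul_add]

/-- `off E` as a real linear map -/
def offL (E : Matrix k k ℂ) : Matrix k k ℂ →ₗ[ℝ] Matrix k k ℂ where
  toFun := off E
  map_add' := off_add E
  map_smul' := off_smul E

variable {V : Type*} [NormedAddCommGroup V] [NormedSpace ℝ V] [FiniteDimensional ℝ V]

theorem hsq_linear_le {k l : Type} [Fintype k] [Fintype l] (A : V →ₗ[ℝ] Matrix k l ℂ) :
    ∃ K : ℝ, 0 ≤ K ∧ ∀ h, hsq (A h) ≤ K * ‖h‖ ^ 2 := by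
  let L : k → l → V →L[ℝ] ℂ := fun i j => LinearMap.toContinuousLinearMap
    { toFun := fun v => A v i j
      map_add' := fun x y => by simp
      map_smul' := fun c x => by simp }
  refine ⟨∑ i, ∑ j, ‖L i j‖ ^ 2, Finset.sum_nonneg fun _ _ => Finset.sum_nonneg fun _ _ => by
    positivity, fun h => ?_⟩
  unfold hsq
  rw [Finset.sum_mul]
  refine Finset.sum_le_sum fun i _ => ?_
  rw [Finset.sum_mul]
  refine Finset.sum_le_sum fun j _ => ?_
  rw [Complex.normSq_eq_norm_sq, ← mul_pow]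
  exact pow_le_pow_left₀ (norm_nonneg _) ((L i j).le_opNorm h) 2

theorem hd_near {N : Tube k} {E : Matrix k k ℂ} (hE : IsProj 1 E) (hN : Expands N E)
    (A : V →ₗ[ℝ] Matrix k k ℂ) {v₀ : V} (hA : A v₀ = E) :
    HD (fun v => N.near (hm (A v))) (fun h => off E (hm (A h))) v₀ := by
  obtain ⟨C, r, hr, hC⟩ := hN
  obtain ⟨K, hK0, hK⟩ := hsq_linear_le ((hmL k).comp A)
  have hK' : ∀ h, hsq (hm (A h)) ≤ K * ‖h‖ ^ 2 := hK
  refine HD.of_bound (C := Real.sqrt |C| * K) (r := Real.sqrt (r / (K + 1)))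
    ⟨(offL E).comp ((hmL k).comp A), fun h => rfl⟩ (by positivity) ?_
  intro x hx i j
  have h1 : hsq (hm (A x)) < r := by
    refine (hK' x).trans_lt ?_
    have h2 : ‖x‖ ^ 2 < r / (K + 1) := by
      have := Real.lt_sqrt (norm_nonneg x) |>.1 hx
      exact this
    calc K * ‖x‖ ^ 2 ≤ (K + 1) * ‖x‖ ^ 2 := by nlinarith [sq_nonneg ‖x‖]
      _ < (K + 1) * (r / (K + 1)) := mul_lt_mul_of_pos_left h2 (by positivity)
      _ = r := by field_simp
  have h3 := hC (hm (A x)) (hm_herm _) h1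
  have h4 : N.near (hm (A (v₀ + x))) = N.near (E + hm (A x)) := by
    rw [map_add, hm_add, hA, hm_of_herm hE.herm]
  have h5 : N.near (hm (A v₀)) = E := by
    rw [hA, hm_of_herm hE.herm, N.near_proj E hE]
  rw [h4, h5]
  have h6 := norm_sq_le_hsq (N.near (E + hm (A x)) - E - off E (hm (A x))) i j
  have h7 : ‖(N.near (E + hm (A x)) - E - off E (hm (A x))) i j‖ ^ 2 ≤
      (Real.sqrt |C| * K * ‖x‖ ^ 2) ^ 2 := by
    refine (h6.trans h3).trans ?_
    have h8 : C * hsq (hm (A x)) ^ 2 ≤ |C| * (K * ‖x‖ ^ 2) ^ 2 := by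
      have h9 : hsq (hm (A x)) ^ 2 ≤ (K * ‖x‖ ^ 2) ^ 2 :=
        pow_le_pow_left₀ (hsq_nonneg _) (hK' x) 2
      calc C * hsq (hm (A x)) ^ 2 ≤ |C| * hsq (hm (A x)) ^ 2 :=
            mul_le_mul_of_nonneg_right (le_abs_self C) (by positivity)
        _ ≤ _ := mul_le_mul_of_nonneg_left h9 (abs_nonneg C)
    refine h8.trans (le_of_eq ?_)
    rw [mul_assoc (Real.sqrt |C|), mul_pow (Real.sqrt |C|), Real.sq_sqrt (abs_nonneg C)]
  have h10 : (0 : ℝ) ≤ Real.sqrt |C| * K * ‖x‖ ^ 2 := by positivity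
  have h11 := abs_le_of_sq_le_sq h7 h10
  rw [abs_of_nonneg (norm_nonneg _)] at h11
  exact h11

/-- derivative of `nrm (A v) (near (hm (A v)))` -/
def nrm' (E a : Matrix k k ℂ) : Matrix k k ℂ :=
  (a - off E (hm a)) - (1 - E) * (a - off E (hm a)) * E

theorem hd_nrm {N : Tube k} {E : Matrix k k ℂ} (hE : IsProj 1 E) (hN : Expands N E)
    (A : V →ₗ[ℝ] Matrix k k ℂ) {v₀ : V} (hA : A v₀ = E) :
    HD (fun v => nrm (A v) (N.near (hm (A v)))) (fun h => nrm' E (A h)) v₀ := by
  have h1 := hd_near hE hN A hA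
  have h2 : N.near (hm E) = E := by
    rw [hm_of_herm hE.herm, N.near_proj E hE]
  have h3 : HD (fun v => A v) (fun h => A h) v₀ := HD.linear A v₀
  have h4 := h3.sub h1
  have h5 := (HD.const (1 : Matrix k k ℂ) v₀).sub h1
  have h6 := h4.sub ((h5.mul h4).mul h1)
  refine h6.congr fun h => ?_
  simp only [hA, h2, sub_self, Matrix.mul_zero, Matrix.zero_mul, add_zero, zero_add]
  rfl

end off

section ref

/-- `e_0 e_0^*` -/
def Er (k : ℕ) : Matrix (Fin (k + 1)) (Fin (k + 1)) ℂ := Matrix.single 0 0 1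

theorem Er_apply (k : ℕ) (a b : Fin (k + 1)) : Er k a b = if a = 0 ∧ b = 0 then 1 else 0 := by
  unfold Er
  rw [Matrix.single_apply]
  congr 1
  rw [eq_iff_iff, eq_comm, @eq_comm _ 0 b]

theorem isProj_Er (k : ℕ) : IsProj 1 (Er k) where
  idem := by unfold Er; simp
  herm := by unfold Er; simp
  trace := by unfold Er; simp

theorem Er_mul {k : ℕ} {J : Type} (X : Matrix (Fin (k + 1)) J ℂ) (a : Fin (k + 1)) (b : J) :
    (Er k * X) a b = if a = 0 then X 0 b else 0 := by
  rw [Matrix.mul_apply]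
  simp only [Er_apply]
  by_cases h : a = 0
  · simp [h]
  · simp [h]

theorem mul_Er {k : ℕ} {J : Type} (X : Matrix J (Fin (k + 1)) ℂ) (a : J) (b : Fin (k + 1)) :
    (X * Er k) a b = if b = 0 then X a 0 else 0 := by
  rw [Matrix.mul_apply]
  simp only [Er_apply]
  by_cases h : b = 0
  · simp [h]
  · simp [h]

theorem off_Er_apply {k : ℕ} (η : Matrix (Fin (k + 1)) (Fin (k + 1)) ℂ) (a b : Fin (k + 1)) :
    off (Er k) η a b = if (a = 0 ∧ b ≠ 0) ∨ (a ≠ 0 ∧ b = 0) then η a b else 0 := by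
  unfold off
  rw [Matrix.mul_sub, Matrix.mul_one, Matrix.sub_mul, Matrix.one_mul, Matrix.sub_mul]
  simp only [Matrix.add_apply, Matrix.sub_apply, mul_Er, Er_mul]
  by_cases ha : a = 0 <;> by_cases hb : b = 0 <;> simp [ha, hb]

theorem inj_core {k : ℕ} {a : Matrix (Fin (k + 1)) (Fin (k + 1)) ℂ} (h1 : nrm' (Er k) a = 0)
    (h2 : ∀ i : Fin (k + 1), i ≠ 0 → off (Er k) (hm a) i 0 = 0) : a = 0 := by
  have h3 : ∀ i : Fin (k + 1), i ≠ 0 → hm a i 0 = 0 := by
    intro i hi
    have := h2 i hi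
    rw [off_Er_apply, if_pos (Or.inr ⟨hi, rfl⟩)] at this
    exact this
  have h4 : ∀ i : Fin (k + 1), i ≠ 0 → hm a 0 i = 0 := by
    intro i hi
    have := congrFun (congrFun (hm_herm a) 0) i
    rw [conjTranspose_apply, h3 i hi, star_zero] at this
    exact this.symm
  have h5 : off (Er k) (hm a) = 0 := by
    ext i j
    rw [off_Er_apply]
    by_cases hi : i = 0 <;> by_cases hj : j = 0
    · simp [hi, hj]
    · simp [hi, hj, h4]
    · simp [hi, hj, h3]
    · simp [hi, hj]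
  have h6 : ∀ i j : Fin (k + 1), ¬ (i ≠ 0 ∧ j = 0) → a i j = 0 := by
    intro i j hij
    have h7 := congrFun (congrFun h1 i) j
    unfold nrm' at h7
    rw [h5, sub_zero, Matrix.sub_mul, Matrix.one_mul, Matrix.sub_mul] at h7
    simp only [Matrix.sub_apply, mul_Er, Er_mul, Matrix.zero_apply] at h7
    by_cases hi : i = 0 <;> by_cases hj : j = 0
    · subst hi; subst hj; simpa using h7
    · simpa [hi, hj] using h7
    · exact absurd ⟨hi, hj⟩ hij
    · simpa [hi, hj] using h7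
  ext i j
  by_cases hij : i ≠ 0 ∧ j = 0
  · obtain ⟨hi, rfl⟩ := hij
    have h8 := h3 i hi
    unfold hm at h8
    rw [Matrix.smul_apply, Matrix.add_apply, conjTranspose_apply, h6 0 i (by simp [hi])] at h8
    simpa using h8
  · exact h6 i j hij

/-- the point `(E, (E)_i)` -/
def vRef (p : ℕ) (I : Type) : VV (p + 1) I := (Er p, fun _ => Er 1)

theorem datRef_fst (m p : ℕ) (I : Type) (i : Fin p) (j : Fin m) :
    (datRef m p I).1 i j = if (j : ℕ) = i + 1 then 1 else 0 := rfl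

theorem datRef_snd (m p : ℕ) (I : Type) (i : I) (a : Fin 2) (j : Fin m) :
    (datRef m p I).2 i a j = if (a : ℕ) = 0 ∧ (j : ℕ) = 0 then 1 else 0 := rfl

theorem datRef_fst_mul {p : ℕ} {I J : Type} (X : Matrix (Fin (p + 1)) J ℂ) (i : Fin p) (j : J) :
    ((datRef (p + 1) p I).1 * X) i j = X i.succ j := by
  rw [Matrix.mul_apply]
  rw [Finset.sum_eq_single i.succ]
  · rw [datRef_fst]
    simp
  · intro b _ hb
    rw [datRef_fst, if_neg, zero_mul]
    intro h
    exact hb (Fin.ext (by simpa using h))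
  · intro h
    exact absurd (Finset.mem_univ _) h

theorem datRef_snd_mul {p : ℕ} {I J : Type} (X : Matrix (Fin (p + 1)) J ℂ) (i : I) (a : Fin 2)
    (j : J) : ((datRef (p + 1) p I).2 i * X) a j = if a = 0 then X 0 j else 0 := by
  rw [Matrix.mul_apply]
  rw [Finset.sum_eq_single 0]
  · rw [datRef_snd]
    by_cases h : a = 0
    · simp [h]
    · have : (a : ℕ) ≠ 0 := fun h' => h (Fin.ext h')
      simp [h, this]
  · intro b _ hb
    rw [datRef_snd, if_neg, zero_mul]
    intro h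
    exact hb (Fin.ext h.2)
  · intro h
    exact absurd (Finset.mem_univ _) h

theorem one_sub_Er_mul_datRef {p : ℕ} {I : Type} (i : I) :
    (1 - Er 1) * (datRef (p + 1) p I).2 i = 0 := by
  ext a j
  rw [Matrix.sub_mul, Matrix.one_mul, Matrix.sub_apply, Er_mul, Matrix.zero_apply]
  fin_cases a
  · simp
  · simp only [datRef_snd]
    simp

end ref

section xi

variable {p : ℕ} {I : Type} [Fintype I] [DecidableEq I]
variable {V : Type*} [NormedAddCommGroup V] [NormedSpace ℝ V] [FiniteDimensional ℝ V]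

/-- the derivative of the reference vector -/
def xiD (p : ℕ) (I : Type) (v : VV (p + 1) I) : JJ (p + 1) p I → ℂ :=
  Sum.elim (Sum.elim (mvec ((8 : ℂ) • nrm' (Er p) v.1))
      (mvec ((datRef (p + 1) p I).1 * off (Er p) (hm v.1))))
    fun q => Sum.elim (mvec ((8 : ℂ) • nrm' (Er 1) (v.2 q.2)))
      (mvec (-(off (Er 1) (hm (v.2 q.2)) * (datRef (p + 1) p I).2 q.2 * Er p))) q.1

theorem xiD_injective {v : VV (p + 1) I} (h : xiD p I v = 0) : v = 0 := by
  have h1 : nrm' (Er p) v.1 = 0 := by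
    ext a b
    have := congrFun h (Sum.inl (Sum.inl (a, b)))
    simpa [xiD, mvec] using this
  have h2 : ∀ i : Fin (p + 1), i ≠ 0 → off (Er p) (hm v.1) i 0 = 0 := by
    intro i hi
    obtain ⟨i', rfl⟩ := Fin.exists_succ_eq.2 hi
    have := congrFun h (Sum.inl (Sum.inr (i', 0)))
    simpa [xiD, mvec, datRef_fst_mul] using this
  have h3 : ∀ i, nrm' (Er 1) (v.2 i) = 0 := by
    intro i
    ext a b
    have := congrFun h (Sum.inr (Sum.inl (a, b), i))
    simpa [xiD, mvec] using this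
  have h4 : ∀ i : I, ∀ a : Fin 2, a ≠ 0 → off (Er 1) (hm (v.2 i)) a 0 = 0 := by
    intro i a ha
    have := congrFun h (Sum.inr (Sum.inr (a, 0), i))
    simp only [xiD, Sum.elim_inr, mvec, Pi.zero_apply, Matrix.neg_apply, neg_eq_zero] at this
    rw [mul_Er, if_pos rfl, Matrix.mul_apply, Fin.sum_univ_two] at this
    simpa [datRef_snd] using this
  refine Prod.ext (inj_core h1 h2) (funext fun i => inj_core (h3 i) (h4 i))

variable {N : Tube (Fin (p + 1))} {N2 : Tube (Fin 2)}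

theorem xi_eq_zero (N : Tube (Fin (p + 1))) (N2 : Tube (Fin 2)) :
    xi N N2 (datRef (p + 1) p I) (vRef p I) = 0 := by
  have h1 : PP N (vRef p I) = Er p := by
    unfold PP vRef
    rw [hm_of_herm (isProj_Er p).herm, N.near_proj _ (isProj_Er p)]
  have h2 : ∀ i, QQ N2 (vRef p I) i = Er 1 := by
    intro i
    unfold QQ vRef
    rw [hm_of_herm (isProj_Er 1).herm, N2.near_proj _ (isProj_Er 1)]
  have h3 : ∀ k (A : Matrix (Fin (k + 1)) (Fin (k + 1)) ℂ), nrm A A = 0 := by
    intro k A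
    unfold nrm
    simp
  unfold xi xiVec
  funext j
  rcases j with (⟨a, b⟩ | ⟨a, b⟩) | ⟨⟨a, b⟩ | ⟨a, b⟩, i⟩
  · simp only [Sum.elim_inl, mvec, h1]
    change ((8 : ℂ) • nrm (Er p) (Er p)) a b = 0
    rw [h3, smul_zero]
    rfl
  · simp only [Sum.elim_inl, Sum.elim_inr, mvec, h1]
    rw [datRef_fst_mul, Er_apply, if_neg (by simp)]
    rfl
  · simp only [Sum.elim_inl, Sum.elim_inr, mvec, h2]
    change ((8 : ℂ) • nrm (Er 1) (Er 1)) a b = 0
    rw [h3, smul_zero]
    rfl
  · simp only [Sum.elim_inr, mvec, h1, h2]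
    rw [one_sub_Er_mul_datRef, Matrix.zero_mul]
    rfl

/-- **the reference vector is differentiable at its zero** -/
theorem hasFDerivAt_xi (hN : Expands N (Er p)) (hN2 : Expands N2 (Er 1))
    (φ : V →ₗ[ℝ] VV (p + 1) I) {v₀ : V} (h0 : φ v₀ = vRef p I) :
    ∃ D : V →L[ℝ] (JJ (p + 1) p I → ℂ), (∀ h, D h = xiD p I (φ h)) ∧
      HasFDerivAt (fun v => xi N N2 (datRef (p + 1) p I) (φ v)) D v₀ := by
  let A : V →ₗ[ℝ] Matrix (Fin (p + 1)) (Fin (p + 1)) ℂ := (LinearMap.fst ℝ _ _).comp φ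
  let T : I → V →ₗ[ℝ] Matrix (Fin 2) (Fin 2) ℂ := fun i =>
    (LinearMap.proj i).comp ((LinearMap.snd ℝ _ _).comp φ)
  have hA : A v₀ = Er p := congrArg Prod.fst h0
  have hT : ∀ i, T i v₀ = Er 1 := fun i => congrFun (congrArg Prod.snd h0) i
  have e1 : N.near (hm (Er p)) = Er p := by
    rw [hm_of_herm (isProj_Er p).herm, N.near_proj _ (isProj_Er p)]
  have e2 : N2.near (hm (Er 1)) = Er 1 := by
    rw [hm_of_herm (isProj_Er 1).herm, N2.near_proj _ (isProj_Er 1)]
  have d1 := (hd_nrm (isProj_Er p) hN A hA).smul 8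
  have d2 := hd_near (isProj_Er p) hN A hA
  have d3 := fun i => (hd_nrm (isProj_Er 1) hN2 (T i) (hT i)).smul 8
  have d4 := fun i => hd_near (isProj_Er 1) hN2 (T i) (hT i)
  have d5 := ((HD.const (datRef (p + 1) p I).1 v₀).mul d2).congr
    (f'' := fun h => (datRef (p + 1) p I).1 * off (Er p) (hm (A h)))
    (fun h => by rw [Matrix.zero_mul, add_zero])
  have d6 := fun i => ((((HD.const (1 : Matrix (Fin 2) (Fin 2) ℂ) v₀).sub (d4 i)).mul
    (HD.const ((datRef (p + 1) p I).2 i) v₀)).mul d2).congr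
    (f'' := fun h => -(off (Er 1) (hm (T i h)) * (datRef (p + 1) p I).2 i * Er p))
    (fun h => by
      rw [hA, hT, e1, e2, Matrix.mul_zero, zero_add, one_sub_Er_mul_datRef, Matrix.zero_mul,
        zero_add, zero_sub, Matrix.neg_mul, Matrix.neg_mul])
  apply hasFDerivAt_of_coords
  intro j
  rcases j with (⟨a, b⟩ | ⟨a, b⟩) | ⟨⟨a, b⟩ | ⟨a, b⟩, i⟩
  · exact d1 a b
  · exact d5 a b
  · exact d3 i a b
  · exact d6 i a b

end xi

end Vale.Agent.P093.A.Zero
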