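import Vale.Agent.P093.A.ZeroAlg

/-!
# P093, block A-ZERO: the reference vector has exactly one zero
-/

open Matrix Filter Topology
open Vale.Agent.P251.G (IsProj Th nsq)

noncomputable section

namespace Vale.Agent.P093.A.Zero

open A5

set_option linter.unusedSectionVars false

section alg

variable {k : Type} [Fintype k] [DecidableEq k]

/-- if the normal coordinate vanishes, then `A` is the projection -/
theorem eq_of_nrm_eq_zero {A P : Matrix k k ℂ} (hP : IsProj 1 P) (hc : hm A * P = P * hm A)
    (h : nrm A P = 0) : A = P := by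
  obtain ⟨C, hC⟩ : ∃ C, C = A - P := ⟨_, rfl⟩
  have h1 : C = (1 - P) * C * P := by
    unfold nrm at h
    rw [← hC] at h
    exact sub_eq_zero.1 h
  have h2 : P * C = 0 := by
    rw [h1, ← Matrix.mul_assoc, ← Matrix.mul_assoc, Matrix.mul_sub, Matrix.mul_one, hP.idem,
      sub_self, Matrix.zero_mul, Matrix.zero_mul]
  have h3 : C * P = C := by
    have e : (1 - P) * C * P * P = (1 - P) * C * P := by rw [Matrix.mul_assoc, hP.idem]
    rwa [← h1] at e
  have h4 : P * Cᴴ = Cᴴ := by
    have := congrArg conjTranspose h3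
    rwa [conjTranspose_mul, hP.herm] at this
  have h5 : Cᴴ * P = 0 := by
    have := congrArg conjTranspose h2
    rwa [conjTranspose_mul, hP.herm, conjTranspose_zero] at this
  have h6 : hm C * P = P * hm C := by
    have e : hm A = hm C + P := by
      have : A = C + P := by rw [hC]; abel
      rw [this, hm_add, hm_of_herm hP.herm]
    rw [e, Matrix.add_mul, Matrix.mul_add] at hc
    exact add_right_cancel hc
  unfold hm at h6
  rw [Matrix.smul_mul, Matrix.mul_smul, Matrix.add_mul, Matrix.mul_add, h2, h3, h4, h5, add_zero,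
    zero_add] at h6
  have h7 : C = Cᴴ := by
    have h8 := congrArg (fun X => (2 : ℂ) • X) h6
    simpa using h8
  have h8 : C = 0 := by
    rw [← h3]
    conv_lhs => rw [h7]
    exact h5
  rw [hC, sub_eq_zero] at h8
  exact h8

/-- a rank one projection supported on the first coordinate -/
theorem eq_Er {k : ℕ} {P : Matrix (Fin (k + 1)) (Fin (k + 1)) ℂ} (hP : IsProj 1 P)
    (h : ∀ a b : Fin (k + 1), a ≠ 0 → P a b = 0) : P = Er k := by
  have h2 : ∀ b : Fin (k + 1), b ≠ 0 → P 0 b = 0 := by
    intro b hb
    have := congrFun (congrFun hP.herm 0) b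
    rw [conjTranspose_apply, h b 0 hb, star_zero] at this
    exact this.symm
  have h3 : P 0 0 = 1 := by
    have := hP.trace
    rw [Matrix.trace, Finset.sum_eq_single 0] at this
    · simpa using this
    · intro b _ hb
      exact h b b hb
    · intro h; exact absurd (Finset.mem_univ _) h
  ext a b
  rw [Er_apply]
  by_cases ha : a = 0
  · subst ha
    by_cases hb : b = 0
    · subst hb; simp [h3]
    · simp [hb, h2 b hb]
  · simp [ha, h a b ha]

/-- a rank one projection of `ℂ²` which fixes the first vector -/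
theorem eq_Er_two {P : Matrix (Fin 2) (Fin 2) ℂ} (hP : IsProj 1 P) (h0 : P 0 0 = 1)
    (h1 : P 1 0 = 0) : P = Er 1 := by
  refine eq_Er hP fun a b ha => ?_
  have ha1 : a = 1 := by
    fin_cases a
    · exact absurd rfl ha
    · rfl
  subst ha1
  have h2 : P 1 1 = 0 := by
    have := hP.trace
    rw [Matrix.trace, Fin.sum_univ_two] at this
    simp only [Matrix.diag_apply, h0] at this
    simpa using this
  fin_cases b
  · exact h1
  · exact h2

end alg

section uniq

variable {p : ℕ} {I : Type} [Fintype I] [DecidableEq I] {N : Tube (Fin (p + 1))}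
  {N2 : Tube (Fin 2)}

/-- **the reference vector has only one zero** -/
theorem eq_vRef {v : VV (p + 1) I} (h : xi N N2 (datRef (p + 1) p I) v = 0) : v = vRef p I := by
  have hP := N.isProj (hm v.1)
  have hQ := fun i => N2.isProj (hm (v.2 i))
  have h1 : nrm v.1 (PP N v) = 0 := by
    ext a b
    have := congrFun h (Sum.inl (Sum.inl (a, b)))
    simpa [xi, xiVec, mvec] using this
  have h2 : ∀ (i : Fin p) (b : Fin (p + 1)), PP N v i.succ b = 0 := by
    intro i b
    have := congrFun h (Sum.inl (Sum.inr (i, b)))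
    simpa [xi, xiVec, mvec, datRef_fst_mul] using this
  have h3 : ∀ i, nrm (v.2 i) (QQ N2 v i) = 0 := by
    intro i
    ext a b
    have := congrFun h (Sum.inr (Sum.inl (a, b), i))
    simpa [xi, xiVec, mvec] using this
  have e1 : v.1 = PP N v := eq_of_nrm_eq_zero hP (N.comm _ (hm_herm _)) h1
  have e2 : ∀ i, v.2 i = QQ N2 v i := fun i =>
    eq_of_nrm_eq_zero (hQ i) (N2.comm _ (hm_herm _)) (h3 i)
  have e3 : PP N v = Er p := by
    refine eq_Er hP fun a b ha => ?_
    obtain ⟨i, rfl⟩ := Fin.exists_succ_eq.2 ha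
    exact h2 i b
  have h4 : ∀ i (a : Fin 2), ((1 : Matrix (Fin 2) (Fin 2) ℂ) - QQ N2 v i) a 0 = 0 := by
    intro i a
    have := congrFun h (Sum.inr (Sum.inr (a, 0), i))
    simp only [xi, xiVec, Sum.elim_inr, mvec, Pi.zero_apply, e3] at this
    rw [mul_Er, if_pos rfl, Matrix.mul_apply, Fin.sum_univ_two] at this
    simpa [datRef_snd] using this
  have e4 : ∀ i, QQ N2 v i = Er 1 := by
    intro i
    refine eq_Er_two (hQ i) ?_ ?_
    · have := h4 i 0
      rw [Matrix.sub_apply, Matrix.one_apply_eq, sub_eq_zero] at this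
      exact this.symm
    · have := h4 i 1
      rw [Matrix.sub_apply, Matrix.one_apply_ne (by decide), zero_sub, neg_eq_zero] at this
      exact this
  exact Prod.ext (e1.trans e3) (funext fun i => (e2 i).trans (e4 i))

end uniq

end Vale.Agent.P093.A.Zero
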